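import Vale.Agent.P057.Inner
import Mathlib.Analysis.SpecialFunctions.Pow.Asymptotics
import Mathlib.Analysis.SpecialFunctions.Log.Base

/-!
# Asymptotics for the recursive construction
-/

open Filter Topology Finset

namespace Vale.Agent.P057

theorem ceil_atTop (β : ℝ) (hβ : 0 < β) :
    Tendsto (fun u : ℝ => (⌈β * u⌉₊ : ℝ)) atTop atTop :=
  tendsto_natCast_atTop_atTop.comp
    (tendsto_nat_ceil_atTop.comp (tendsto_id.const_mul_atTop hβ))

theorem logb_ceil_div (β : ℝ) (hβ : 0 < β) :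
    Tendsto (fun u : ℝ => Real.logb 2 ⌈β * u⌉₊ / u) atTop (𝓝 0) := by
  have t1 : Tendsto (fun u : ℝ => (⌈β * u⌉₊ : ℝ) / u) atTop (𝓝 β) :=
    tendsto_nat_ceil_mul_div_atTop hβ.le
  have t2 : Tendsto (fun x : ℝ => Real.log x / x) atTop (𝓝 0) :=
    Real.isLittleO_log_id_atTop.tendsto_div_nhds_zero
  have t3 := (t2.comp (ceil_atTop β hβ)).mul t1
  have t4 := t3.const_mul (1 / Real.log 2)
  rw [zero_mul, mul_zero] at t4
  refine t4.congr' ?_
  filter_upwards [(ceil_atTop β hβ).eventually_gt_atTop 0, eventually_gt_atTop 0] with u h1 h2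
  simp only [Function.comp, Real.logb]
  field_simp

theorem cost_tendsto (n : ℕ) (hn : 1 ≤ n) (β b c1 c2 c3 c4 c5 C : ℝ) (hβ : 0 < β)
    (h3 : 0 ≤ c3) (h4 : 0 ≤ c4) (h5 : 0 ≤ c5) (h : 2 ≤ n ∨ c3 = 0) :
    Tendsto (fun u : ℝ => (b * ⌈β * u⌉₊ + c1 * Real.logb 2 ⌈β * u⌉₊ + c2 +
      C * (c3 * ⌈β * u⌉₊ + c4 * Real.logb 2 ⌈β * u⌉₊ + c5 +
        2 * (u ^ (n + 1) / ⌈β * u⌉₊)) ^ (1 / (n : ℝ))) / u)
      atTop (𝓝 (b * β + C * (2 / β) ^ (1 / (n : ℝ)))) := by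
  have t1 : Tendsto (fun u : ℝ => (⌈β * u⌉₊ : ℝ) / u) atTop (𝓝 β) :=
    tendsto_nat_ceil_mul_div_atTop hβ.le
  have td := ceil_atTop β hβ
  have t2 := logb_ceil_div β hβ
  have t3 : ∀ c : ℝ, Tendsto (fun u : ℝ => c / u) atTop (𝓝 0) := fun c =>
    tendsto_const_nhds.div_atTop tendsto_id
  -- the inner term
  obtain ⟨v0, hv, hv0⟩ : ∃ v0 : ℝ, Tendsto (fun u : ℝ => 1 / u ^ (n - 1)) atTop (𝓝 v0) ∧
      c3 * v0 = 0 := by
    rcases h with h | h
    · refine ⟨0, ?_, by simp⟩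
      exact tendsto_const_nhds.div_atTop (tendsto_pow_atTop (by omega))
    · rcases Nat.lt_or_ge 1 n with h' | h'
      · refine ⟨0, ?_, by simp⟩
        exact tendsto_const_nhds.div_atTop (tendsto_pow_atTop (by omega))
      · have : n - 1 = 0 := by omega
        refine ⟨1, ?_, by simp [h]⟩
        rw [this]
        simp
  have tin : Tendsto (fun u : ℝ => (c3 * ⌈β * u⌉₊ + c4 * Real.logb 2 ⌈β * u⌉₊ + c5 +
        2 * (u ^ (n + 1) / ⌈β * u⌉₊)) / u ^ n) atTop (𝓝 (2 / β)) := by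
    have e1 := ((t1.mul hv).const_mul c3).add (((t2.mul hv).const_mul c4).add
      ((((t3 c5).mul hv)).add ((t1.inv₀ hβ.ne').const_mul 2)))
    have e2 : c3 * (β * v0) + (c4 * (0 * v0) + (0 * v0 + 2 * β⁻¹)) = 2 / β := by
      have : c3 * (β * v0) = β * (c3 * v0) := by ring
      rw [this, hv0]
      field_simp
      ring
    rw [e2] at e1
    refine e1.congr' ?_
    filter_upwards [td.eventually_gt_atTop 0, eventually_gt_atTop 0] with u g1 g2
    obtain ⟨k, rfl⟩ : ∃ k, n = k + 1 := ⟨n - 1, by omega⟩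
    simp only [Nat.add_sub_cancel]
    field_simp
    ring
  have tin' : Tendsto (fun u : ℝ => ((c3 * ⌈β * u⌉₊ + c4 * Real.logb 2 ⌈β * u⌉₊ + c5 +
        2 * (u ^ (n + 1) / ⌈β * u⌉₊)) / u ^ n) ^ (1 / (n : ℝ))) atTop
        (𝓝 ((2 / β) ^ (1 / (n : ℝ)))) :=
    tin.rpow_const (Or.inr (by positivity))
  have tall := (((t1.const_mul b).add ((t2.const_mul c1).add (t3 c2))).add (tin'.const_mul C))
  have e3 : b * β + (c1 * 0 + 0) + C * (2 / β) ^ (1 / (n : ℝ)) =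
      b * β + C * (2 / β) ^ (1 / (n : ℝ)) := by ring
  rw [e3] at tall
  refine tall.congr' ?_
  filter_upwards [td.eventually_ge_atTop 1, eventually_gt_atTop 0] with u g1 g2
  have hlog : 0 ≤ Real.logb 2 (⌈β * u⌉₊ : ℝ) := Real.logb_nonneg (by norm_num) g1
  have hd0 : (0 : ℝ) < ⌈β * u⌉₊ := by linarith
  rw [Real.div_rpow (by positivity) (by positivity)]
  have e4 : (u ^ n) ^ (1 / (n : ℝ)) = u := by
    rw [one_div]
    exact Real.pow_rpow_inv_natCast g2.le (by omega)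
  rw [e4]
  field_simp
  ring

/-- Existence of large sets without polynomial progressions. -/
def Lev (n : ℕ) (C : ℝ) (K D : ℕ) : Prop :=
  ∀ ε > (0 : ℝ), ∀ᶠ N : ℕ in atTop, ∃ A : Finset ℤ, (∀ a ∈ A, 0 ≤ a ∧ a < N) ∧ PFree K D A ∧
    (N : ℝ) * 2 ^ (-((C + ε) * (Real.logb 2 N) ^ (1 / (n : ℝ)))) ≤ A.card

theorem lev_one (K D : ℕ) : Lev 1 1 K D := by
  intro ε hε
  filter_upwards [eventually_ge_atTop 1] with N hN
  refine ⟨{0}, ?_, ?_, ?_⟩
  · intro a ha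
    rw [Finset.mem_singleton] at ha
    subst ha
    exact ⟨le_refl _, by exact_mod_cast hN⟩
  · intro P _ hP j hj
    obtain ⟨a, ha, h1⟩ := hP j hj
    obtain ⟨b, hb, h2⟩ := hP 0 (by omega)
    rw [Finset.mem_singleton] at ha hb
    subst ha; subst hb
    rw [h1]
    rw [Nat.cast_zero] at h2
    rw [h2]
  · have hN' : (1 : ℝ) ≤ N := by exact_mod_cast hN
    have h0 : (0 : ℝ) ≤ Real.logb 2 N := Real.logb_nonneg (by norm_num) hN'
    simp only [Nat.cast_one, div_one, Real.rpow_one, Finset.card_singleton]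
    have h1 : (N : ℝ) = 2 ^ (Real.logb 2 N) := (Real.rpow_logb (by norm_num) (by norm_num)
      (by linarith)).symm
    calc (N : ℝ) * 2 ^ (-((1 + ε) * Real.logb 2 N))
        = 2 ^ (Real.logb 2 N) * 2 ^ (-((1 + ε) * Real.logb 2 N)) := by rw [← h1]
      _ = 2 ^ (Real.logb 2 N + -((1 + ε) * Real.logb 2 N)) :=
          (Real.rpow_add (by norm_num) _ _).symm
      _ ≤ 2 ^ (0 : ℝ) := by
          refine Real.rpow_le_rpow_of_exponent_le (by norm_num) ?_
          nlinarith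
      _ = 1 := Real.rpow_zero _

theorem tendsto_u (n : ℕ) (hn : 1 ≤ n) :
    Tendsto (fun N : ℕ => (Real.logb 2 N) ^ (1 / (n : ℝ))) atTop atTop := by
  have h1 : Tendsto (fun N : ℕ => Real.logb 2 (N : ℝ)) atTop atTop :=
    (Real.tendsto_logb_atTop (by norm_num)).comp tendsto_natCast_atTop_atTop
  exact (tendsto_rpow_atTop (by positivity)).comp h1

theorem tendsto_ratio (n : ℕ) (hn : 1 ≤ n) (β : ℝ) (hβ : 0 < β) :
    Tendsto (fun u : ℝ => u ^ (n + 1) / ⌈β * u⌉₊) atTop atTop := by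
  have t1 : Tendsto (fun u : ℝ => (⌈β * u⌉₊ : ℝ) / u) atTop (𝓝 β) :=
    tendsto_nat_ceil_mul_div_atTop hβ.le
  have t2 := (tendsto_pow_atTop (α := ℝ) (n := n) (by omega)).atTop_mul_pos
    (inv_pos.2 hβ) (t1.inv₀ hβ.ne')
  refine t2.congr' ?_
  filter_upwards [(ceil_atTop β hβ).eventually_gt_atTop 0, eventually_gt_atTop 0] with u g1 g2
  field_simp
  ring

theorem lev_step {n K D : ℕ} {C' : ℝ} (hn : 1 ≤ n) (hC' : 0 ≤ C') (hKD : 2 * D < K)
    (hT : Lev n C' K (2 * D)) (β : ℝ) (hβ : 0 < β) :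
    Lev (n + 1) (D * β + C' * (2 / β) ^ (1 / (n : ℝ))) K D := by
  intro ε hε
  set κ : ℝ := (2 / β) ^ (1 / (n : ℝ)) with hκ
  have hκ0 : 0 < κ := Real.rpow_pos_of_pos (by positivity) _
  set τ : ℝ := ε / (4 * β) with hτ
  set ε' : ℝ := ε / (4 * κ) with hε'
  have hτ0 : 0 < τ := by positivity
  have hε'0 : 0 < ε' := by positivity
  have hlim : (D + τ) * β + (C' + ε') * κ < D * β + C' * κ + ε := by
    have e1 : τ * β = ε / 4 := by rw [hτ]; field_simp
    have e2 : ε' * κ = ε / 4 := by rw [hε']; field_simp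
    nlinarith
  have hcost := (((cost_tendsto n hn β (D + τ) 0 2 0 1 0 (C' + ε') hβ le_rfl (by norm_num)
    le_rfl (Or.inr rfl)).eventually (gt_mem_nhds hlim)))
  have hu := tendsto_u (n + 1) (by omega)
  have hcostN := hu.eventually hcost
  obtain ⟨R₀, hR₀⟩ := eventually_atTop.1 (hT ε' hε'0)
  have hratN := (tendsto_ratio n hn β hβ).comp hu
  -- the base `X = 2^(ℓ/d - D)`
  have hXN : Tendsto (fun N : ℕ => (2 : ℝ) ^ ((((Real.logb 2 N) ^ (1 / ((n + 1 : ℕ) : ℝ))) ^ (n + 1) /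
      ⌈β * (Real.logb 2 N) ^ (1 / ((n + 1 : ℕ) : ℝ))⌉₊) - D)) atTop atTop := by
    have e1 : Tendsto (fun x : ℝ => (2 : ℝ) ^ x) atTop atTop :=
      tendsto_rpow_atTop_of_base_gt_one _ (by norm_num)
    exact e1.comp (tendsto_atTop_add_const_right _ (-(D : ℝ)) hratN)
  have h2τ : (0 : ℝ) < 1 - 2 ^ (-τ) := by
    have : (2 : ℝ) ^ (-τ) < 1 := Real.rpow_lt_one_of_one_lt_of_neg (by norm_num) (by linarith)
    linarith
  filter_upwards [hcostN, hXN.eventually_ge_atTop (R₀ + 2), hXN.eventually_ge_atTop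
    (1 / (1 - 2 ^ (-τ))), eventually_ge_atTop 2, (hu.eventually_gt_atTop 0)] with N h1 h2 h3 h4 h5
  set u : ℝ := (Real.logb 2 N) ^ (1 / ((n + 1 : ℕ) : ℝ)) with hudef
  set d : ℕ := ⌈β * u⌉₊ with hd
  have hN2 : (2 : ℝ) ≤ N := by exact_mod_cast h4
  have hN0 : (0 : ℝ) < N := by linarith
  have hl0 : 0 ≤ Real.logb 2 N := Real.logb_nonneg (by norm_num) (by linarith)
  have hul : u ^ (n + 1) = Real.logb 2 N := by
    rw [hudef, one_div]
    exact Real.rpow_inv_natCast_pow hl0 (by omega)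
  have hd1 : 1 ≤ d := Nat.one_le_iff_ne_zero.2 (by
    have : 0 < d := Nat.ceil_pos.2 (by positivity)
    omega)
  have hd0 : (0 : ℝ) < d := by exact_mod_cast hd1
  set X : ℝ := (2 : ℝ) ^ (u ^ (n + 1) / d - D) with hX
  have hX0 : 0 < X := Real.rpow_pos_of_pos (by norm_num) _
  set m : ℕ := ⌊X⌋₊ with hm
  have hmX : (m : ℝ) ≤ X := Nat.floor_le hX0.le
  have hXm : X - 1 < m := Nat.sub_one_lt_floor X
  have hmτ : X * 2 ^ (-τ) ≤ m := by
    have : 1 ≤ X * (1 - 2 ^ (-τ)) := by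
      rw [div_le_iff₀ h2τ] at h3
      linarith
    nlinarith
  have hm1 : 1 ≤ m := by
    have : (1 : ℝ) < m := by
      have : (0 : ℝ) ≤ R₀ := Nat.cast_nonneg _
      linarith
    exact_mod_cast this.le
  have hm1' : (1 : ℝ) ≤ m := by exact_mod_cast hm1
  have hRm : R₀ ≤ m := by
    have : (R₀ : ℝ) ≤ m := by linarith
    exact_mod_cast this
  set R : ℕ := d * m ^ 2 with hR
  have hRR : R₀ ≤ R := by
    calc R₀ ≤ m := hRm
      _ = 1 * m ^ 1 := by ring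
      _ ≤ d * m ^ 2 := Nat.mul_le_mul hd1 (Nat.pow_le_pow_right hm1 (by norm_num))
  obtain ⟨T, hT0, hTfree, hTcard⟩ := hR₀ R hRR
  obtain ⟨A, hA0, hAfree, hAcard⟩ := inner_step K D d m R hKD hm1 T hT0 hTfree
  have hqd : (((2 ^ D * m : ℕ) : ℝ)) ^ d ≤ N := by
    have e1 : (((2 ^ D * m : ℕ) : ℝ)) ≤ 2 ^ (u ^ (n + 1) / d) := by
      push_cast
      calc (2 : ℝ) ^ D * m ≤ 2 ^ D * X := by gcongr
        _ = 2 ^ (D : ℝ) * 2 ^ (u ^ (n + 1) / d - D) := by rw [Real.rpow_natCast]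
        _ = 2 ^ (u ^ (n + 1) / d) := by
            rw [← Real.rpow_add (by norm_num)]; congr 1; ring
    calc (((2 ^ D * m : ℕ) : ℝ)) ^ d ≤ (2 ^ (u ^ (n + 1) / d)) ^ d :=
          pow_le_pow_left₀ (by positivity) e1 d
      _ = 2 ^ (u ^ (n + 1) / d * d) := by rw [Real.rpow_mul (by norm_num), Real.rpow_natCast]
      _ = 2 ^ (Real.logb 2 N) := by rw [hul]; congr 1; field_simp
      _ = N := Real.rpow_logb (by norm_num) (by norm_num) hN0
  refine ⟨A, ?_, hAfree, ?_⟩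
  · intro a ha
    refine ⟨(hA0 a ha).1, lt_of_lt_of_le (hA0 a ha).2 ?_⟩
    have : ((((2 ^ D * m : ℕ) : ℤ) ^ d : ℤ) : ℝ) ≤ ((N : ℤ) : ℝ) := by
      push_cast at hqd ⊢
      exact hqd
    exact_mod_cast this
  · -- counting
    have hR0 : (0 : ℝ) < R := by rw [hR]; positivity
    set G : ℝ := (C' + ε') * (Real.logb 2 R) ^ (1 / (n : ℝ)) with hG
    have e1 : (m : ℝ) ^ d * T.card ≤ (d * m ^ 2 + 1 + R) * A.card := by exact_mod_cast hAcard
    have hR1 : (1 : ℝ) ≤ R := by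
      have : 1 ≤ R := by rw [hR]; exact Nat.mul_pos hd1 (pow_pos hm1 2)
      exact_mod_cast this
    have e2 : ((d : ℝ) * m ^ 2 + 1 + R) ≤ 3 * R := by
      have : (R : ℝ) = d * m ^ 2 := by rw [hR]; push_cast; ring
      linarith
    have e3 : (m : ℝ) ^ d * (R * 2 ^ (-G)) ≤ 3 * R * A.card := by
      calc (m : ℝ) ^ d * (R * 2 ^ (-G)) ≤ (m : ℝ) ^ d * T.card := by gcongr
        _ ≤ (d * m ^ 2 + 1 + R) * A.card := e1
        _ ≤ 3 * R * A.card := by gcongr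
    have e4 : (m : ℝ) ^ d * 2 ^ (-G) ≤ 3 * A.card := by
      have : R * ((m : ℝ) ^ d * 2 ^ (-G)) ≤ R * (3 * A.card) := by linarith
      exact le_of_mul_le_mul_left this hR0
    have e5 : (N : ℝ) * 2 ^ (-((D + τ) * d)) ≤ (m : ℝ) ^ d := by
      calc (N : ℝ) * 2 ^ (-((D + τ) * d)) = 2 ^ (Real.logb 2 N) * 2 ^ (-((D + τ) * d)) := by
            rw [Real.rpow_logb (by norm_num) (by norm_num) hN0]
        _ = 2 ^ (Real.logb 2 N + -((D + τ) * d)) := (Real.rpow_add (by norm_num) _ _).symm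
        _ = 2 ^ ((u ^ (n + 1) / d - D + -τ) * d) := by
            congr 1; rw [hul]; field_simp; ring
        _ = (X * 2 ^ (-τ)) ^ d := by
            rw [Real.rpow_mul (by norm_num), Real.rpow_natCast, hX,
              ← Real.rpow_add (by norm_num)]
        _ ≤ (m : ℝ) ^ d := pow_le_pow_left₀ (by positivity) hmτ d
    have hlogR : Real.logb 2 R ≤ Real.logb 2 d + 2 * (u ^ (n + 1) / d) := by
      have f1 : Real.logb 2 R = Real.logb 2 d + 2 * Real.logb 2 m := by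
        rw [hR]; push_cast
        rw [Real.logb_mul hd0.ne' (by positivity), Real.logb_pow]
        push_cast; ring
      have f2 : Real.logb 2 m ≤ u ^ (n + 1) / d := by
        rw [Real.logb_le_iff_le_rpow (by norm_num) (by linarith)]
        refine hmX.trans ?_
        rw [hX]
        refine Real.rpow_le_rpow_of_exponent_le (by norm_num) ?_
        have : (0 : ℝ) ≤ D := Nat.cast_nonneg _
        linarith
      linarith
    have hlogR0 : 0 ≤ Real.logb 2 R := Real.logb_nonneg (by norm_num) hR1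
    have hGle : G ≤ (C' + ε') * (0 * d + 1 * Real.logb 2 d + 0 +
        2 * (u ^ (n + 1) / d)) ^ (1 / (n : ℝ)) := by
      rw [hG]
      refine mul_le_mul_of_nonneg_left ?_ (by linarith)
      refine Real.rpow_le_rpow hlogR0 ?_ (by positivity)
      linarith
    have hfin : (D + τ) * d + 2 + G ≤ (D * β + C' * κ + ε) * u := by
      have := (div_lt_iff₀ h5).1 h1
      linarith
    have e6 : (N : ℝ) * 2 ^ (-((D * β + C' * κ + ε) * u)) ≤
        (N : ℝ) * 2 ^ (-((D + τ) * d)) * 2 ^ (-G) * 2 ^ (-2 : ℝ) := by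
      rw [mul_assoc, mul_assoc, ← Real.rpow_add (by norm_num), ← Real.rpow_add (by norm_num)]
      refine mul_le_mul_of_nonneg_left ?_ hN0.le
      refine Real.rpow_le_rpow_of_exponent_le (by norm_num) ?_
      linarith
    have e7 : (2 : ℝ) ^ (-2 : ℝ) = 1 / 4 := by
      rw [Real.rpow_neg (by norm_num)]; norm_num
    have hG0 : (0 : ℝ) < 2 ^ (-G) := Real.rpow_pos_of_pos (by norm_num) _
    calc (N : ℝ) * 2 ^ (-((D * β + C' * κ + ε) * u))
        ≤ (N : ℝ) * 2 ^ (-((D + τ) * d)) * 2 ^ (-G) * 2 ^ (-2 : ℝ) := e6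
      _ ≤ (m : ℝ) ^ d * 2 ^ (-G) * 2 ^ (-2 : ℝ) := by gcongr
      _ ≤ 3 * A.card * 2 ^ (-2 : ℝ) := by gcongr
      _ ≤ A.card := by
          rw [e7]
          have : (0 : ℝ) ≤ A.card := Nat.cast_nonneg _
          linarith

end Vale.Agent.P057
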