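import Vale.Agent.P057.Final
import Mathlib.RingTheory.Polynomial.Cyclotomic.Eval
import Mathlib.NumberTheory.DiophantineApproximation.Basic
import Mathlib.Algebra.BigOperators.Intervals

/-!
# The cyclotomic certificate
-/

open Polynomial Finset Filter

namespace Vale.Agent.P057

/-- Pair a polynomial with a sequence. -/
noncomputable def pair (f : ℕ → ℝ) (P : ℤ[X]) : ℝ := P.sum fun j c => (c : ℝ) * f j

theorem pair_add (f : ℕ → ℝ) (P Q : ℤ[X]) : pair f (P + Q) = pair f P + pair f Q :=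
  Polynomial.sum_add_index P Q _ (fun i => by simp) (fun i a b => by push_cast; ring)

theorem pair_range (f : ℕ → ℝ) (P : ℤ[X]) (K : ℕ) (hK : P.natDegree < K) :
    pair f P = ∑ j ∈ range K, (P.coeff j : ℝ) * f j :=
  Polynomial.sum_over_range' P (fun n => by simp) K hK

theorem pair_shift (b : ℕ) (f : ℕ → ℝ) (P : ℤ[X]) :
    pair f (X ^ b * P) = pair (fun j => f (j + b)) P := by
  induction P using Polynomial.induction_on' with
  | add p q hp hq => rw [mul_add, pair_add, pair_add, hp, hq]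
  | monomial n a =>
    rw [← C_mul_X_pow_eq_monomial]
    have h1 : (X : ℤ[X]) ^ b * (C a * X ^ n) = monomial (n + b) a := by
      rw [← C_mul_X_pow_eq_monomial]; ring
    rw [h1, C_mul_X_pow_eq_monomial]
    unfold pair
    rw [Polynomial.sum_monomial_index _ _ (by simp), Polynomial.sum_monomial_index _ _ (by simp)]

theorem pair_smul_C (f : ℕ → ℝ) (a : ℤ) (P : ℤ[X]) : pair f (C a * P) = a * pair f P := by
  induction P using Polynomial.induction_on' with
  | add p q hp hq => rw [mul_add, pair_add, pair_add, hp, hq]; ring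
  | monomial n c =>
    rw [C_mul_monomial]
    unfold pair
    rw [Polynomial.sum_monomial_index _ _ (by simp), Polynomial.sum_monomial_index _ _ (by simp)]
    push_cast; ring

theorem pair_kill (b K : ℕ) (G : ℤ[X]) (hG : G.natDegree + 2 * b < K) (y : ℕ → ℝ) (s : ℝ)
    (hy : ∀ j, j + b < K → y (j + b) = y j + s) :
    pair (fun j => y j ^ 2) ((X ^ b - 1) ^ 2 * G) = 2 * s ^ 2 * (G.eval 1 : ℤ) := by
  have h1 : ((X : ℤ[X]) ^ b - 1) ^ 2 * G = X ^ (2 * b) * G + (C (-2) * (X ^ b * G) + G) := by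
    simp only [map_neg, C_ofNat]
    ring
  rw [h1, pair_add, pair_add, pair_smul_C, pair_shift, pair_shift]
  have hlt : G.natDegree < K := by omega
  rw [pair_range _ G _ (Nat.lt_succ_self _), pair_range _ G _ (Nat.lt_succ_self _),
    pair_range _ G _ (Nat.lt_succ_self _), Polynomial.eval_eq_sum_range, Finset.mul_sum]
  push_cast
  rw [Finset.mul_sum, ← Finset.sum_add_distrib, ← Finset.sum_add_distrib]
  refine Finset.sum_congr rfl fun i hi => ?_
  have hi' : i ≤ G.natDegree := Nat.lt_succ_iff.1 (Finset.mem_range.1 hi)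
  have h2 : y (i + b) = y i + s := hy i (by omega)
  have h3 : y (i + 2 * b) = y i + 2 * s := by
    rw [show i + 2 * b = (i + b) + b by ring, hy (i + b) (by omega), h2]; ring
  rw [h2, h3]
  ring

theorem eval_one_cyclotomic_ne (d : ℕ) (hd : d ≠ 1) : (cyclotomic d ℤ).eval 1 ≠ 0 := by
  rcases Nat.eq_zero_or_pos d with h0 | h0
  · subst h0; simp
  · intro h
    have : NeZero ((d : ℕ) : ℤ) := ⟨by exact_mod_cast h0.ne'⟩
    have h1 : IsRoot (cyclotomic d ℤ) 1 := h
    rw [isRoot_cyclotomic_iff] at h1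
    exact hd (Nat.dvd_one.1 (h1.dvd_of_pow_eq_one 1 (one_pow 1)))

/-- The certificate polynomial. -/
noncomputable def Lam (h : ℕ) : ℤ[X] := ∏ d ∈ Finset.Ico 1 h, (cyclotomic d ℤ) ^ 2

theorem Lam_natDegree (h : ℕ) : (Lam h).natDegree = 2 * ∑ d ∈ Finset.Ico 1 h, d.totient := by
  unfold Lam
  rw [natDegree_prod_of_monic _ _ (fun d _ => (cyclotomic.monic d ℤ).pow 2), Finset.mul_sum]
  refine Finset.sum_congr rfl fun d _ => ?_
  rw [natDegree_pow, natDegree_cyclotomic]

theorem Lam_factor (h b : ℕ) (hb1 : 1 ≤ b) (hbh : b < h) :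
    ∃ G : ℤ[X], Lam h = (X ^ b - 1) ^ 2 * G ∧ 1 ≤ G.eval 1 ∧
      G.natDegree + 2 * b = (Lam h).natDegree := by
  classical
  have hsub : b.divisors ⊆ Finset.Ico 1 h := by
    intro d hd
    have h1 := Nat.divisor_le hd
    have h2 := Nat.pos_of_mem_divisors hd
    rw [Finset.mem_Ico]
    omega
  set G : ℤ[X] := ∏ d ∈ Finset.Ico 1 h \ b.divisors, (cyclotomic d ℤ) ^ 2 with hG
  have hfac : Lam h = (X ^ b - 1) ^ 2 * G := by
    unfold Lam
    rw [← Finset.prod_sdiff hsub, ← hG, Finset.prod_pow, prod_cyclotomic_eq_X_pow_sub_one hb1]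
    ring
  have hGmonic : G.Monic := monic_prod_of_monic _ _ fun d _ => (cyclotomic.monic d ℤ).pow 2
  refine ⟨G, hfac, ?_, ?_⟩
  · rw [hG, eval_prod]
    have : 0 < ∏ d ∈ Finset.Ico 1 h \ b.divisors, eval 1 (cyclotomic d ℤ ^ 2) := by
      refine Finset.prod_pos fun d hd => ?_
      rw [Finset.mem_sdiff] at hd
      have hd1 : d ≠ 1 := by
        rintro rfl
        exact hd.2 (Nat.one_mem_divisors.2 (by omega))
      rw [eval_pow]
      have := eval_one_cyclotomic_ne d hd1
      positivity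
    omega
  · have hm : ((X : ℤ[X]) ^ b - 1).Monic := monic_X_pow_sub_C 1 (by omega)
    rw [hfac, (hm.pow 2).natDegree_mul hGmonic, natDegree_pow,
      show (X : ℤ[X]) ^ b - 1 = X ^ b - C 1 by simp, natDegree_X_pow_sub_C]
    ring

/-- A step `α` has a multiple `b α`, `b < h`, within `1/h` of an integer; a progression modulo one
inside `[0, 1 - 1/h)` then moves by exactly `b α - round (b α)` every `b` steps. -/
theorem cyclo_cert (h K : ℕ) (hh : 2 ≤ h) (hK : 1 + 2 * ∑ d ∈ Finset.Ico 1 h, d.totient ≤ K) :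
    IsCert K 1 (fun _ y => y ^ 2) (fun _ j => ((Lam h).coeff j : ℝ)) (Nat.factorial (h - 1))
      (2 / (Nat.factorial (h - 1) : ℝ) ^ 2) (Set.Ico 0 (1 - 1 / (h : ℝ))) where
  L_pos := Nat.factorial_pos _
  kap_pos := by
    have : (0 : ℝ) < (Nat.factorial (h - 1) : ℝ) := by exact_mod_cast Nat.factorial_pos _
    positivity
  bdd := by
    intro _ y hy
    have h0 : (0 : ℝ) < 1 / (h : ℝ) := by positivity
    exact ⟨sq_nonneg y, by nlinarith [hy.1, hy.2]⟩
  sum_zero := by
    intro _
    have hdeg := Lam_natDegree h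
    have h1 : (Lam h).eval 1 = 0 := by
      obtain ⟨G, hG, -, -⟩ := Lam_factor h 1 le_rfl (by omega)
      rw [hG]; simp
    rw [Polynomial.eval_eq_sum_range' (by omega : (Lam h).natDegree < K)] at h1
    simp only [one_pow, mul_one] at h1
    exact_mod_cast h1
  main := by
    intro y α hy hprog
    have hdeg := Lam_natDegree h
    have hfac0 : (0 : ℝ) < (Nat.factorial (h - 1) : ℝ) := by exact_mod_cast Nat.factorial_pos _
    obtain ⟨b, hb0, hbn, hbα⟩ := Real.exists_nat_abs_mul_sub_round_le α (by omega : 0 < h - 1)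
    have hh1 : (((h - 1 : ℕ) : ℝ) + 1) = h := by
      rw [Nat.cast_sub (by omega)]; push_cast; ring
    rw [hh1] at hbα
    set s : ℝ := b * α - round (b * α) with hs
    obtain ⟨G, hG, hG1, hGdeg⟩ := Lam_factor h b hb0 (by omega)
    -- exact moves
    have hmove : ∀ j, j + b < K → y (j + b) = y j + s := by
      intro j hj
      obtain ⟨w1, hw1⟩ := hprog j (by omega)
      obtain ⟨w2, hw2⟩ := hprog (j + b) hj
      have h1 := hy j (by omega)
      have h2 := hy (j + b) hj
      have h3 : y (j + b) - y j - s = ((w2 - w1 + round (b * α) : ℤ) : ℝ) := by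
        rw [hw1, hw2, hs]; push_cast; ring
      have h4 : |((w2 - w1 + round (b * α) : ℤ) : ℝ)| < 1 := by
        rw [← h3, abs_lt]
        have h5 := abs_le.1 hbα
        constructor
        · linarith [h1.2, h2.1, h5.2]
        · linarith [h1.1, h2.2, h5.1]
      have h5 : w2 - w1 + round (b * α) = 0 := by
        rw [← Int.cast_abs] at h4
        have h6 : |w2 - w1 + round (b * α)| < 1 := by exact_mod_cast h4
        exact Int.abs_lt_one_iff.1 h6
      rw [h5, Int.cast_zero] at h3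
      linarith
    have hkill := pair_kill b K G (by omega) y s hmove
    rw [← hG, pair_range _ _ K (by omega)] at hkill
    have hL : |((Nat.factorial (h - 1) : ℕ) : ℝ) * α -
        round (((Nat.factorial (h - 1) : ℕ) : ℝ) * α)| ≤ (Nat.factorial (h - 1) : ℝ) * |s| := by
      obtain ⟨e, he⟩ : b ∣ Nat.factorial (h - 1) := Nat.dvd_factorial hb0 hbn
      have hb0' : (1 : ℝ) ≤ b := by exact_mod_cast hb0
      refine (round_le _ ((e : ℤ) * round (b * α))).trans ?_
      have h1 : ((Nat.factorial (h - 1) : ℕ) : ℝ) * α - (((e : ℤ) * round (b * α) : ℤ) : ℝ) =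
          e * s := by
        rw [he, hs]; push_cast; ring
      rw [h1, abs_mul, abs_of_nonneg (Nat.cast_nonneg e)]
      refine mul_le_mul_of_nonneg_right ?_ (abs_nonneg _)
      rw [he]
      push_cast
      have : (0 : ℝ) ≤ e := Nat.cast_nonneg e
      nlinarith
    simp only [Finset.univ_unique, Finset.sum_const, Finset.card_singleton, one_smul]
    rw [hkill]
    have hG1' : (1 : ℝ) ≤ ((G.eval 1 : ℤ) : ℝ) := by exact_mod_cast hG1
    calc 2 / (Nat.factorial (h - 1) : ℝ) ^ 2 *
          |((Nat.factorial (h - 1) : ℕ) : ℝ) * α -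
            round (((Nat.factorial (h - 1) : ℕ) : ℝ) * α)| ^ 2
        ≤ 2 / (Nat.factorial (h - 1) : ℝ) ^ 2 * ((Nat.factorial (h - 1) : ℝ) * |s|) ^ 2 := by
          gcongr
      _ = 2 * s ^ 2 := by
          rw [mul_pow, sq_abs]; field_simp
      _ ≤ 2 * s ^ 2 * ((G.eval 1 : ℤ) : ℝ) := le_mul_of_one_le_right (by positivity) hG1'

theorem count_Ico (θ : ℝ) (θ' : ℝ) (hθ : θ' < θ) (hθ1 : θ ≤ 1) :
    ∀ᶠ p : ℕ in atTop, θ' * p ≤ (cnt (Set.Ico 0 θ) p : ℝ) := by
  filter_upwards [eventually_ge_atTop 1] with p hp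
  have hp0 : (0 : ℝ) < p := by exact_mod_cast hp
  have h2 := le_cnt (Set.Ico 0 θ) p (range ⌈θ * p⌉₊) (by
    intro x hx
    have hx' := Nat.lt_ceil.1 (Finset.mem_range.1 hx)
    refine ⟨?_, by positivity, (div_lt_iff₀ hp0).2 hx'⟩
    have : (x : ℝ) < p := by nlinarith
    exact_mod_cast this)
  rw [Finset.card_range] at h2
  calc θ' * p ≤ θ * p := by gcongr
    _ ≤ (⌈θ * p⌉₊ : ℝ) := Nat.le_ceil _
    _ ≤ _ := by exact_mod_cast h2

end Vale.Agent.P057
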