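import Mathlib.Data.Finset.Lattice.Fold
import Mathlib.Data.Finset.Powerset
import Mathlib.Order.Interval.Finset.Nat

/-!
# The extremal function for arithmetic progressions
-/

namespace Vale.Agent.P057

/-- `A` contains no arithmetic progression of length `k` with positive common difference. -/
def APFree (k : ℕ) (A : Finset ℕ) : Prop :=
  ∀ a r : ℕ, 0 < r → ¬ ∀ j < k, a + j * r ∈ A

open Classical in
/-- `rk k N` is the largest cardinality of a subset of `{1, …, N}` without a `k`-term arithmetic
progression. -/
noncomputable def rk (k N : ℕ) : ℕ :=
  ((Finset.Icc 1 N).powerset.filter fun A => APFree k A).sup Finset.card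

end Vale.Agent.P057
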