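import Vale.Agent.P057.First
import Vale.Agent.P057.Asym
import Mathlib.NumberTheory.Bertrand

/-!
# Assembling the bound
-/

open Filter Topology Finset

namespace Vale.Agent.P057

theorem card_le_rk {k N : ℕ} {A : Finset ℕ} (hA : A ⊆ Finset.Icc 1 N) (h : APFree k A) :
    A.card ≤ rk k N := by
  classical
  exact Finset.le_sup (f := Finset.card)
    (Finset.mem_filter.2 ⟨Finset.mem_powerset.2 hA, h⟩)

/-- Cutting a long interval into pieces of length `N`. -/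
theorem cut_interval {k N Q : ℕ} (hN : 1 ≤ N) (hNQ : N ≤ Q) (A : Finset ℕ)
    (hA : ∀ a ∈ A, a < Q) (h : APFree k A) : A.card * N ≤ 2 * Q * rk k N := by
  classical
  obtain ⟨y, hy, hcard⟩ := pigeon2 A (range (Q / N + 1)) (fun a => a / N) (by
    intro a ha
    rw [Finset.mem_range, Nat.lt_succ_iff]
    exact Nat.div_le_div_right (hA a ha).le) ⟨0, by simp⟩
  set A' := A.filter (fun a => a / N = y) with hA'
  have hmem : ∀ a ∈ A', y * N ≤ a ∧ a < y * N + N := by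
    intro a ha
    have h1 := (Finset.mem_filter.1 ha).2
    have h2 := Nat.div_add_mod a N
    have h3 := Nat.mod_lt a (by omega : 0 < N)
    rw [h1, Nat.mul_comm] at h2
    constructor <;> omega
  set A'' := A'.image (fun a => a - y * N + 1) with hA''
  have hinj : Set.InjOn (fun a => a - y * N + 1) (A' : Set ℕ) := by
    intro a ha b hb hab
    have h1 := hmem a ha
    have h2 := hmem b hb
    simp only at hab
    omega
  have h1 : A'.card = A''.card := (Finset.card_image_of_injOn hinj).symm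
  have h2 : A''.card ≤ rk k N := by
    refine card_le_rk ?_ ?_
    · intro b hb
      obtain ⟨a, ha, rfl⟩ := Finset.mem_image.1 hb
      have := hmem a ha
      rw [Finset.mem_Icc]
      omega
    · intro a r hr hall
      refine h (a + y * N - 1) r hr fun j hj => ?_
      obtain ⟨b, hb, hb2⟩ := Finset.mem_image.1 (hall j hj)
      have h3 := hmem b hb
      have h4 : a + y * N - 1 + j * r = b := by
        obtain ⟨b0, hb0, hb02⟩ := Finset.mem_image.1 (hall 0 (by omega))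
        simp only [zero_mul, add_zero] at hb02
        have h5 := hmem b0 hb0
        omega
      rw [h4]
      exact (Finset.mem_filter.1 hb).1
  rw [Finset.card_range] at hcard
  have h3 : N * (Q / N + 1) ≤ 2 * Q := by
    have := Nat.mul_div_le Q N
    nlinarith
  calc A.card * N ≤ (Q / N + 1) * A'.card * N := Nat.mul_le_mul_right _ hcard
    _ = N * (Q / N + 1) * A'.card := by ring
    _ ≤ 2 * Q * rk k N := Nat.mul_le_mul h3 (h1 ▸ h2)

/-- Primes in dyadic ranges. -/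
theorem primes_exist (x : ℕ) (hx : 1 ≤ x) : ∃ p : ℕ → ℕ, (∀ i, (p i).Prime) ∧ StrictMono p ∧
    (∀ i, x < p i) ∧ ∀ i, p i ≤ 2 ^ (i + 1) * x := by
  have h1 : ∀ n : ℕ, ∃ p : ℕ, 0 < n → (p.Prime ∧ n < p ∧ p ≤ 2 * n) := by
    intro n
    rcases Nat.eq_zero_or_pos n with h | h
    · exact ⟨0, fun h' => by omega⟩
    · obtain ⟨p, hp⟩ := Nat.exists_prime_lt_and_le_two_mul n h.ne'
      exact ⟨p, fun _ => hp⟩
  choose nx hnx using h1
  have hpos : ∀ i, 0 < nx^[i] x := by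
    intro i
    induction i with
    | zero => exact hx
    | succ i ih =>
      rw [Function.iterate_succ_apply']
      exact (hnx _ ih).1.pos
  have hs : ∀ i, nx^[i + 1 + 1] x = nx (nx^[i + 1] x) := fun i =>
    Function.iterate_succ_apply' nx (i + 1) x
  have h0 : nx^[0 + 1] x = nx x := rfl
  refine ⟨fun i => nx^[i + 1] x, ?_, ?_, ?_, ?_⟩
  · intro i
    show (nx^[i + 1] x).Prime
    rw [Function.iterate_succ_apply']
    exact (hnx _ (hpos i)).1
  · refine strictMono_nat_of_lt_succ fun i => ?_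
    show nx^[i + 1] x < nx^[i + 1 + 1] x
    rw [hs]
    exact (hnx _ (hpos _)).2.1
  · intro i
    show x < nx^[i + 1] x
    induction i with
    | zero => rw [h0]; exact (hnx _ hx).2.1
    | succ i ih =>
      refine ih.trans ?_
      rw [hs]
      exact (hnx _ (hpos _)).2.1
  · intro i
    show nx^[i + 1] x ≤ 2 ^ (i + 1) * x
    induction i with
    | zero => rw [h0]; simpa using (hnx _ hx).2.2
    | succ i ih =>
      rw [hs]
      refine (hnx _ (hpos _)).2.2.trans ?_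
      calc 2 * nx^[i + 1] x ≤ 2 * (2 ^ (i + 1) * x) := Nat.mul_le_mul_left _ ih
        _ = 2 ^ (i + 1 + 1) * x := by ring

/-- The digit set modulo `p`. -/
noncomputable def digitSet (L : ℕ) (η : ℝ) (S : Set ℝ) (p : ℕ) : Finset ℕ := by
  classical
  exact (range p).filter fun x : ℕ => (x : ℝ) / p ∈ S ∧
    η * p ≤ ((L * x) % p : ℕ) ∧ (((L * x) % p : ℕ) : ℝ) ≤ (1 - η) * p

theorem mem_digitSet {L : ℕ} {η : ℝ} {S : Set ℝ} {p x : ℕ} (h : x ∈ digitSet L η S p) :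
    x < p ∧ (x : ℝ) / p ∈ S ∧
    η * p ≤ ((L * x) % p : ℕ) ∧ (((L * x) % p : ℕ) : ℝ) ≤ (1 - η) * p := by
  classical
  have h1 := Finset.mem_filter.1 h
  exact ⟨Finset.mem_range.1 h1.1, h1.2⟩

open Classical in
/-- The number of `x < p` with `x / p` in `S`. -/
noncomputable def cnt (S : Set ℝ) (p : ℕ) : ℕ :=
  ((range p).filter fun x : ℕ => (x : ℝ) / p ∈ S).card

theorem le_cnt (S : Set ℝ) (p : ℕ) (B : Finset ℕ) (hB : ∀ x ∈ B, x < p ∧ (x : ℝ) / p ∈ S) :
    B.card ≤ cnt S p := by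
  classical
  refine Finset.card_le_card fun x hx => ?_
  rw [Finset.mem_filter, Finset.mem_range]
  exact hB x hx

open Classical in
theorem digitSet_card (L : ℕ) (S : Set ℝ) (θ : ℝ)
    (hcount : ∀ θ' < θ, ∀ᶠ p : ℕ in atTop, θ' * p ≤ (cnt S p : ℝ)) (θ'' : ℝ) (hθ0 : 0 ≤ θ'') (hθ1 : θ ≤ 1)
    (hθ : θ'' < θ) :
    ∃ η > (0 : ℝ), ∀ᶠ p : ℕ in atTop, Nat.Coprime p L → θ'' * p ≤ (digitSet L η S p).card := by
  set η : ℝ := (θ - θ'') / 8 with hη
  have hη0 : 0 < η := by rw [hη]; linarith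
  refine ⟨η, hη0, ?_⟩
  have h1 := hcount ((θ + θ'') / 2) (by linarith)
  have h2 : ∀ᶠ p : ℕ in atTop, 2 ≤ η * p := by
    have : Tendsto (fun p : ℕ => η * (p : ℝ)) atTop atTop :=
      tendsto_natCast_atTop_atTop.const_mul_atTop hη0
    exact this.eventually_ge_atTop 2
  filter_upwards [h1, h2, eventually_ge_atTop 1] with p h3 h4 h5 hco
  have hp0 : (0 : ℝ) < p := by exact_mod_cast h5
  have h1η : 0 ≤ (1 - η) * p := by
    refine mul_nonneg ?_ hp0.le
    rw [hη]; linarith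
  set F := (range p).filter fun x : ℕ => (x : ℝ) / p ∈ S with hF
  set bad := (range p).filter fun x : ℕ => ((((L * x) % p : ℕ) : ℝ) < η * p ∨
    (1 - η) * p < (((L * x) % p : ℕ) : ℝ)) with hbad
  have hsub : F ⊆ digitSet L η S p ∪ bad := by
    intro x hx
    rw [Finset.mem_union]
    have hx' := Finset.mem_filter.1 hx
    by_cases hb : ((((L * x) % p : ℕ) : ℝ) < η * p ∨ (1 - η) * p < (((L * x) % p : ℕ) : ℝ))
    · right
      exact Finset.mem_filter.2 ⟨hx'.1, hb⟩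
    · left
      push Not at hb
      exact Finset.mem_filter.2 ⟨hx'.1, hx'.2, hb.1, hb.2⟩
  have hbadcard : (bad.card : ℝ) ≤ 2 * η * p + 2 := by
    have hinj : Set.InjOn (fun x => (L * x) % p) (bad : Set ℕ) := by
      intro x hx y hy hxy
      have hx' := Finset.mem_range.1 (Finset.mem_filter.1 (Finset.mem_coe.1 hx)).1
      have hy' := Finset.mem_range.1 (Finset.mem_filter.1 (Finset.mem_coe.1 hy)).1
      have h6 : L * x ≡ L * y [MOD p] := hxy
      have h7 : x ≡ y [MOD p] := Nat.ModEq.cancel_left_of_coprime hco h6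
      exact Nat.ModEq.eq_of_lt_of_lt h7 hx' hy'
    rw [← Finset.card_image_of_injOn hinj]
    have hsub2 : bad.image (fun x => (L * x) % p) ⊆
        range ⌈η * p⌉₊ ∪ Finset.Ioo ⌊(1 - η) * p⌋₊ p := by
      intro w hw
      obtain ⟨x, hx, rfl⟩ := Finset.mem_image.1 hw
      have hx' := Finset.mem_filter.1 hx
      rw [Finset.mem_union, Finset.mem_range, Finset.mem_Ioo]
      rcases hx'.2 with h6 | h6
      · left
        exact Nat.lt_ceil.2 h6
      · right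
        refine ⟨?_, Nat.mod_lt _ (by omega)⟩
        exact (Nat.floor_lt h1η).2 h6
    have h7 := (Finset.card_le_card hsub2).trans (Finset.card_union_le _ _)
    rw [Finset.card_range, Nat.card_Ioo] at h7
    have h8 : ((⌈η * p⌉₊ : ℕ) : ℝ) < η * p + 1 := Nat.ceil_lt_add_one (by positivity)
    have h9 : (1 - η) * p < ((⌊(1 - η) * p⌋₊ : ℕ) : ℝ) + 1 := Nat.lt_floor_add_one _
    have h10 : ((p - ⌊(1 - η) * p⌋₊ - 1 : ℕ) : ℝ) ≤ η * p := by
      rcases Nat.lt_or_ge p (⌊(1 - η) * p⌋₊ + 1) with h11 | h11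
      · have : p - ⌊(1 - η) * p⌋₊ - 1 = 0 := by omega
        rw [this]
        have : 0 ≤ η * p := by positivity
        simpa using this
      · rw [Nat.sub_sub, Nat.cast_sub h11]
        push_cast
        linarith
    have h11 : (((bad.image (fun x => (L * x) % p)).card : ℕ) : ℝ) ≤
        (⌈η * p⌉₊ : ℕ) + (p - ⌊(1 - η) * p⌋₊ - 1 : ℕ) := by exact_mod_cast h7
    linarith
  have hcard := (Finset.card_le_card hsub).trans (Finset.card_union_le _ _)
  have hcard' : (F.card : ℝ) ≤ (digitSet L η S p).card + bad.card := by exact_mod_cast hcard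
  have hFc : F.card = cnt S p := rfl
  rw [hFc] at hcard'
  have h8 : (θ + θ'') / 2 * p - (2 * η * p + 2) ≥ θ'' * p := by
    have : (θ - θ'') = 8 * η := by rw [hη]; ring
    have h9 : (θ + θ'') / 2 = θ'' + 4 * η := by linarith
    rw [h9]
    nlinarith
  linarith

theorem logR_bound (d : ℕ) (hd : 1 ≤ d) (r : ℝ) (x : ℕ) (hx : (x : ℝ) ≤ 2 * 2 ^ r)
    (p : Fin d → ℕ) (hp : ∀ i, p i ≤ 2 ^ ((i : ℕ) + 1) * x) (hR : 1 ≤ ∑ i, p i ^ 2) :
    Real.logb 2 ((∑ i, p i ^ 2 : ℕ) : ℝ) ≤ 2 * d + 1 * Real.logb 2 d + 2 + 2 * r := by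
  have hd0 : (0 : ℝ) < d := by exact_mod_cast hd
  have hX0 : (0 : ℝ) < 2 ^ r := Real.rpow_pos_of_pos (by norm_num) _
  have hR0 : (0 : ℝ) < ((∑ i, p i ^ 2 : ℕ) : ℝ) := by exact_mod_cast hR
  have g1 : ((∑ i, p i ^ 2 : ℕ) : ℝ) ≤ d * ((2 : ℝ) ^ d * (2 * 2 ^ r)) ^ 2 := by
    have g2 : ∀ i, (p i : ℝ) ≤ 2 ^ d * (2 * 2 ^ r) := by
      intro i
      have g3 : (p i : ℝ) ≤ 2 ^ ((i : ℕ) + 1) * x := by exact_mod_cast hp i
      have g4 : (2 : ℝ) ^ ((i : ℕ) + 1) ≤ 2 ^ d := pow_le_pow_right₀ (by norm_num) i.2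
      calc (p i : ℝ) ≤ 2 ^ ((i : ℕ) + 1) * x := g3
        _ ≤ 2 ^ d * (2 * 2 ^ r) := by gcongr
    push_cast
    calc ∑ i, (p i : ℝ) ^ 2 ≤ ∑ _i : Fin d, ((2 : ℝ) ^ d * (2 * 2 ^ r)) ^ 2 :=
          Finset.sum_le_sum fun i _ => pow_le_pow_left₀ (Nat.cast_nonneg _) (g2 i) 2
      _ = d * ((2 : ℝ) ^ d * (2 * 2 ^ r)) ^ 2 := by
          rw [Finset.sum_const, Finset.card_univ, Fintype.card_fin, nsmul_eq_mul]
  have g6 : (d : ℝ) * ((2 : ℝ) ^ d * (2 * 2 ^ r)) ^ 2 =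
      2 ^ (2 * d + 1 * Real.logb 2 d + 2 + 2 * r) := by
    have g7 : (2 : ℝ) * 2 ^ r = 2 ^ (1 + r) := by
      rw [Real.rpow_add (by norm_num), Real.rpow_one]
    rw [g7, ← Real.rpow_natCast 2 d, ← Real.rpow_add (by norm_num), ← Real.rpow_natCast,
      ← Real.rpow_mul (by norm_num)]
    nth_rewrite 1 [← Real.rpow_logb (by norm_num : (0 : ℝ) < 2) (by norm_num) hd0]
    rw [← Real.rpow_add (by norm_num)]
    congr 1
    push_cast
    ring
  rw [Real.logb_le_iff_le_rpow (by norm_num) hR0]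
  exact g1.trans g6.le

theorem W_bound (d M : ℕ) (hd : 1 ≤ d) (δ : ℝ) (hδ : 0 < δ) :
    ((d : ℝ) / δ + 1) ^ M ≤ 2 ^ (M * Real.logb 2 d + M * Real.logb 2 (1 / δ + 1)) := by
  have hd1' : (1 : ℝ) ≤ d := by exact_mod_cast hd
  have hd0 : (0 : ℝ) < d := by linarith
  have g1 : (d : ℝ) / δ + 1 ≤ d * (1 / δ + 1) := by
    have : (d : ℝ) / δ = d * (1 / δ) := by ring
    rw [this]
    linarith
  have g2 : (d : ℝ) * (1 / δ + 1) = 2 ^ (Real.logb 2 d + Real.logb 2 (1 / δ + 1)) := by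
    rw [Real.rpow_add (by norm_num), Real.rpow_logb (by norm_num) (by norm_num) hd0,
      Real.rpow_logb (by norm_num) (by norm_num) (by positivity)]
  calc ((d : ℝ) / δ + 1) ^ M ≤ (d * (1 / δ + 1)) ^ M := pow_le_pow_left₀ (by positivity) g1 M
    _ = (2 ^ (Real.logb 2 d + Real.logb 2 (1 / δ + 1))) ^ M := by rw [g2]
    _ = 2 ^ ((Real.logb 2 d + Real.logb 2 (1 / δ + 1)) * M) := by
        rw [Real.rpow_mul (by norm_num), Real.rpow_natCast]
    _ = 2 ^ (M * Real.logb 2 d + M * Real.logb 2 (1 / δ + 1)) := by congr 1; ring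

theorem final_count (N Q Acard rkv M d : ℕ) (R Tcard B F θ'' b' G W E δ c : ℝ)
    (hR1 : 1 ≤ R) (hQ0 : (0 : ℝ) < Q) (hN0 : (0 : ℝ) < N) (hW : W = ((d : ℝ) / δ + 1) ^ M)
    (hδ : 0 < δ) (hd : 1 ≤ d) (hc : c = Real.logb 2 (1 / δ + 1))
    (hθ'' : θ'' = 2 ^ (-b')) (hF : F ≤ W) (hB : θ'' ^ d * Q ≤ B)
    (hT : R * 2 ^ (-G) ≤ Tcard) (hA : B * Tcard ≤ F * (R + 1 + R) * Acard)
    (hcut : (Acard : ℝ) * N ≤ 2 * Q * rkv)
    (hfin : b' * d + M * Real.logb 2 d + (M * c + 3) + G ≤ E) :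
    (N : ℝ) * 2 ^ (-E) ≤ rkv := by
  have hR0 : (0 : ℝ) < R := by linarith
  have hG0 : (0 : ℝ) < 2 ^ (-G) := Real.rpow_pos_of_pos (by norm_num) _
  have hθ''0 : 0 < θ'' := by rw [hθ'']; exact Real.rpow_pos_of_pos (by norm_num) _
  have hW0 : 0 < W := by rw [hW]; positivity
  have hT0 : 0 ≤ Tcard := le_trans (by positivity) hT
  have hB0 : 0 ≤ B := le_trans (by positivity) hB
  have e2 : θ'' ^ d * Q * (R * 2 ^ (-G)) ≤ W * (3 * R) * Acard := by
    calc θ'' ^ d * Q * (R * 2 ^ (-G)) ≤ B * Tcard := by gcongr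
      _ ≤ F * (R + 1 + R) * Acard := hA
      _ ≤ W * (3 * R) * Acard := by
          gcongr
          linarith
  have e3 : θ'' ^ d * Q * 2 ^ (-G) ≤ W * 3 * Acard := by
    have : R * (θ'' ^ d * Q * 2 ^ (-G)) ≤ R * (W * 3 * Acard) := by linarith
    exact le_of_mul_le_mul_left this hR0
  have e5 : N * (θ'' ^ d * 2 ^ (-G)) ≤ 6 * W * rkv := by
    have : Q * (N * (θ'' ^ d * 2 ^ (-G))) ≤ Q * (6 * W * rkv) := by
      calc Q * (N * (θ'' ^ d * 2 ^ (-G))) = (θ'' ^ d * Q * 2 ^ (-G)) * N := by ring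
        _ ≤ (W * 3 * Acard) * N := by gcongr
        _ = 3 * W * (Acard * N) := by ring
        _ ≤ 3 * W * (2 * Q * rkv) := by gcongr
        _ = Q * (6 * W * rkv) := by ring
    exact le_of_mul_le_mul_left this hQ0
  have f1 : θ'' ^ d = 2 ^ (-(b' * d)) := by
    rw [hθ'', ← Real.rpow_natCast, ← Real.rpow_mul (by norm_num)]
    congr 1; ring
  have f2 : W ≤ 2 ^ (M * Real.logb 2 d + M * c) := by
    rw [hW, hc]; exact W_bound d M hd δ hδ
  have f4 : (6 : ℝ) ≤ 2 ^ (3 : ℝ) := by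
    rw [show (3 : ℝ) = ((3 : ℕ) : ℝ) by norm_num, Real.rpow_natCast]; norm_num
  have f5 : 6 * W ≤ 2 ^ (M * Real.logb 2 d + M * c + 3) := by
    calc 6 * W ≤ 2 ^ (3 : ℝ) * 2 ^ (M * Real.logb 2 d + M * c) := by gcongr
      _ = 2 ^ (M * Real.logb 2 d + M * c + 3) := by
          rw [← Real.rpow_add (by norm_num)]; congr 1; ring
  have f6 : (N : ℝ) * 2 ^ (-E) * (6 * W) ≤ (6 * W) * rkv := by
    calc (N : ℝ) * 2 ^ (-E) * (6 * W)
        ≤ (N : ℝ) * 2 ^ (-E) * 2 ^ (M * Real.logb 2 d + M * c + 3) := by gcongr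
      _ = N * 2 ^ (-E + (M * Real.logb 2 d + M * c + 3)) := by
          rw [mul_assoc, ← Real.rpow_add (by norm_num)]
      _ ≤ N * 2 ^ (-(b' * d) + -G) := by
          refine mul_le_mul_of_nonneg_left ?_ hN0.le
          refine Real.rpow_le_rpow_of_exponent_le (by norm_num) ?_
          linarith
      _ = N * (θ'' ^ d * 2 ^ (-G)) := by rw [Real.rpow_add (by norm_num), f1]
      _ ≤ 6 * W * rkv := e5
  have f7 : (6 * W) * ((N : ℝ) * 2 ^ (-E)) ≤ (6 * W) * rkv := by linarith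
  exact le_of_mul_le_mul_left f7 (by positivity)

/-- The first level on top of a level set: the general lower bound. -/
theorem final_asym {K M : ℕ} {g : Fin M → ℝ → ℝ} {lam : Fin M → ℕ → ℝ} {L : ℕ} {κ : ℝ} {S : Set ℝ}
    (hcert : IsCert K M g lam L κ S) (hK : 3 ≤ K) (θ : ℝ) (hθ0 : 0 < θ) (hθ1 : θ ≤ 1)
    (hcount : ∀ θ' < θ, ∀ᶠ p : ℕ in atTop, θ' * p ≤ (cnt S p : ℝ))
    {n : ℕ} (hn : 2 ≤ n) {C' : ℝ} (hC' : 0 ≤ C') (hT : Lev n C' K 2) (β : ℝ) (hβ : 0 < β)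
    (ε : ℝ) (hε : 0 < ε) :
    ∀ᶠ N : ℕ in atTop, (N : ℝ) * 2 ^ (-((Real.logb 2 (1 / θ) * β + C' * (2 / β) ^ (1 / (n : ℝ)) + ε)
      * (Real.logb 2 N) ^ (1 / ((n + 1 : ℕ) : ℝ)))) ≤ rk K N := by
  set b : ℝ := Real.logb 2 (1 / θ) with hb
  have hbθ : (2 : ℝ) ^ (-b) = θ := by
    rw [hb, one_div, Real.logb_inv, neg_neg]
    exact Real.rpow_logb (by norm_num) (by norm_num) hθ0
  set κ' : ℝ := (2 / β) ^ (1 / (n : ℝ)) with hκ'
  have hκ0 : 0 < κ' := Real.rpow_pos_of_pos (by positivity) _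
  set τ : ℝ := ε / (4 * β) with hτ
  set ε' : ℝ := ε / (4 * κ') with hε'
  have hτ0 : 0 < τ := by positivity
  have hε'0 : 0 < ε' := by positivity
  have hlim : (b + τ) * β + (C' + ε') * κ' < b * β + C' * κ' + ε := by
    have e1 : τ * β = ε / 4 := by rw [hτ]; field_simp
    have e2 : ε' * κ' = ε / 4 := by rw [hε']; field_simp
    nlinarith
  -- the digit sets
  set θ'' : ℝ := 2 ^ (-(b + τ)) with hθ''
  have hθ''0 : 0 < θ'' := Real.rpow_pos_of_pos (by norm_num) _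
  have hθ''θ : θ'' < θ := by
    rw [← hbθ]
    exact Real.rpow_lt_rpow_of_exponent_lt (by norm_num) (by linarith)
  obtain ⟨η, hη0, hηcard⟩ := digitSet_card L S θ hcount θ'' hθ''0.le hθ1 hθ''θ
  obtain ⟨P₀, hP₀⟩ := eventually_atTop.1 hηcard
  set Λ : ℝ := ∑ c, ∑ j ∈ range K, |lam c j| with hΛ
  have hΛ0 : 0 ≤ Λ := Finset.sum_nonneg fun c _ => Finset.sum_nonneg fun j _ => abs_nonneg _
  set δ : ℝ := κ * (2 * η) ^ 2 / (Λ + 1) with hδ
  have hκη : 0 < κ * (2 * η) ^ 2 := mul_pos hcert.kap_pos (by positivity)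
  have hδ0 : 0 < δ := div_pos hκη (by linarith)
  have hδη : δ * Λ < κ * (2 * η) ^ 2 := by
    rw [hδ, div_mul_eq_mul_div, div_lt_iff₀ (by linarith)]
    nlinarith
  set cδ : ℝ := Real.logb 2 (1 / δ + 1) with hcδ
  have hcost := (((cost_tendsto n (by omega) β (b + τ) M (M * cδ + 3) 2 1 2 (C' + ε') hβ
    (by norm_num) (by norm_num) (by norm_num) (Or.inl hn)).eventually (gt_mem_nhds hlim)))
  have hu := tendsto_u (n + 1) (by omega)
  have hcostN := hu.eventually hcost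
  obtain ⟨R₀, hR₀⟩ := eventually_atTop.1 (hT ε' hε'0)
  have hratN := (tendsto_ratio n (by omega) β hβ).comp hu
  have hXN : Tendsto (fun N : ℕ => (2 : ℝ) ^ ((((Real.logb 2 N) ^ (1 / ((n + 1 : ℕ) : ℝ))) ^ (n + 1) /
      ⌈β * (Real.logb 2 N) ^ (1 / ((n + 1 : ℕ) : ℝ))⌉₊))) atTop atTop := by
    have e1 : Tendsto (fun x : ℝ => (2 : ℝ) ^ x) atTop atTop :=
      tendsto_rpow_atTop_of_base_gt_one _ (by norm_num)
    exact e1.comp hratN
  filter_upwards [hcostN, hXN.eventually_ge_atTop (R₀ + P₀ + L + 1), eventually_ge_atTop 2,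
    (hu.eventually_gt_atTop 0)] with N h1 h2 h4 h5
  set u : ℝ := (Real.logb 2 N) ^ (1 / ((n + 1 : ℕ) : ℝ)) with hudef
  set d : ℕ := ⌈β * u⌉₊ with hd
  have hN2 : (2 : ℝ) ≤ N := by exact_mod_cast h4
  have hN0 : (0 : ℝ) < N := by linarith
  have hl0 : 0 ≤ Real.logb 2 N := Real.logb_nonneg (by norm_num) (by linarith)
  have hul : u ^ (n + 1) = Real.logb 2 N := by
    rw [hudef, one_div]
    exact Real.rpow_inv_natCast_pow hl0 (by omega)
  have hdpos : 0 < d := Nat.ceil_pos.2 (by positivity)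
  have hd1 : 1 ≤ d := hdpos
  have hd0 : (0 : ℝ) < d := by exact_mod_cast hd1
  have hd1' : (1 : ℝ) ≤ d := by exact_mod_cast hd1
  set X : ℝ := (2 : ℝ) ^ (u ^ (n + 1) / d) with hX
  have hX0 : 0 < X := Real.rpow_pos_of_pos (by norm_num) _
  have hX1 : 1 ≤ X := by
    have g1 : (0 : ℝ) ≤ R₀ := Nat.cast_nonneg _
    have g2 : (0 : ℝ) ≤ P₀ := Nat.cast_nonneg _
    have g3 : (0 : ℝ) ≤ L := Nat.cast_nonneg _
    linarith
  set x : ℕ := ⌈X⌉₊ with hx
  have hxX : X ≤ x := Nat.le_ceil X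
  have hx2X : (x : ℝ) ≤ 2 * X := by
    have := Nat.ceil_lt_add_one hX0.le
    linarith
  have hxbig : R₀ + P₀ + L + 1 ≤ x := by
    have : ((R₀ + P₀ + L + 1 : ℕ) : ℝ) ≤ x := by push_cast; linarith
    exact_mod_cast this
  have hx1 : 1 ≤ x := by omega
  have hx1' : (1 : ℝ) ≤ x := by exact_mod_cast hx1
  obtain ⟨pp, hpp1, hpp2, hpp3, hpp4⟩ := primes_exist x hx1
  set p : Fin d → ℕ := fun i => pp i with hp
  have hp0 : ∀ i, 0 < p i := fun i => (hpp1 i).pos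
  have hp0' : ∀ i, (0 : ℝ) < p i := fun i => by exact_mod_cast hp0 i
  have hco : Pairwise (Function.onFun Nat.Coprime p) := by
    intro i j hij
    refine (Nat.coprime_primes (hpp1 i) (hpp1 j)).2 fun h => hij ?_
    exact Fin.ext (hpp2.injective h)
  have hxp : ∀ i, x ≤ p i := fun i => (hpp3 i).le
  have hL : ∀ i, Nat.Coprime (p i) L := by
    intro i
    rw [Nat.Prime.coprime_iff_not_dvd (hpp1 i)]
    intro hdvd
    have h6 := Nat.le_of_dvd hcert.L_pos hdvd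
    have h7 := hpp3 (i : ℕ)
    omega
  set R : ℕ := ∑ i, p i ^ 2 with hR
  have hi0 : Fin d := ⟨0, hdpos⟩
  have hRx : x ^ 2 ≤ R := by
    have h6 : x ^ 2 ≤ p hi0 ^ 2 := Nat.pow_le_pow_left (hxp hi0) 2
    exact h6.trans (Finset.single_le_sum (f := fun i => p i ^ 2) (fun i _ => Nat.zero_le _)
      (Finset.mem_univ hi0))
  have hxx : x ≤ x ^ 2 := by nlinarith
  have hRR : R₀ ≤ R := by omega
  have hR1 : 1 ≤ R := by omega
  have hR1' : (1 : ℝ) ≤ R := by exact_mod_cast hR1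
  have hR0 : (0 : ℝ) < R := by linarith
  obtain ⟨T, hT0, hTfree, hTcard⟩ := hR₀ R hRR
  obtain ⟨A, hAlt, hAfree, hAcard⟩ := first_step hcert hK p hp0 hco hL η δ hδ0 hη0 hδη T R hT0
    hTfree (fun i => digitSet L η S (p i)) (by
      intro i y hy
      exact mem_digitSet hy)
  set Q : ℕ := ∏ i, p i with hQ
  have hQN : N ≤ Q := by
    have h6 : x ^ d ≤ Q := by
      calc x ^ d = ∏ _i : Fin d, x := by simp
        _ ≤ Q := Finset.prod_le_prod' fun i _ => hxp i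
    have h7 : (N : ℝ) ≤ (x : ℝ) ^ d := by
      calc (N : ℝ) = 2 ^ (Real.logb 2 N) :=
            (Real.rpow_logb (by norm_num) (by norm_num) hN0).symm
        _ = 2 ^ (u ^ (n + 1) / d * d) := by rw [hul]; congr 1; field_simp
        _ = X ^ d := by rw [Real.rpow_mul (by norm_num), Real.rpow_natCast]
        _ ≤ (x : ℝ) ^ d := pow_le_pow_left₀ hX0.le hxX d
    have h8 : N ≤ x ^ d := by exact_mod_cast h7
    exact h8.trans h6
  have hcut := cut_interval (by omega : 1 ≤ N) hQN A hAlt hAfree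
  have hQ0 : (0 : ℝ) < Q := by
    have : 0 < Q := by omega
    exact_mod_cast this
  -- counting
  set G : ℝ := (C' + ε') * (Real.logb 2 R) ^ (1 / (n : ℝ)) with hG
  have hprod : θ'' ^ d * Q ≤ ∏ i, ((digitSet L η S (p i)).card : ℝ) := by
    calc θ'' ^ d * (Q : ℝ) = ∏ i, (θ'' * (p i : ℝ)) := by
          rw [Finset.prod_mul_distrib, hQ]; simp
      _ ≤ ∏ i, ((digitSet L η S (p i)).card : ℝ) := by
          refine Finset.prod_le_prod (fun i _ => by positivity) fun i _ => ?_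
          exact hP₀ (p i) (by have := hxp i; omega) (hL i)
  have f3 : Real.logb 2 R ≤ 2 * d + 1 * Real.logb 2 d + 2 + 2 * (u ^ (n + 1) / d) :=
    logR_bound d hd1 _ x hx2X p (fun i => hpp4 i) hR1
  have hlogR0 : 0 ≤ Real.logb 2 R := Real.logb_nonneg (by norm_num) hR1'
  have hGle : G ≤ (C' + ε') * (2 * d + 1 * Real.logb 2 d + 2 +
      2 * (u ^ (n + 1) / d)) ^ (1 / (n : ℝ)) := by
    rw [hG]
    refine mul_le_mul_of_nonneg_left ?_ (by linarith)
    exact Real.rpow_le_rpow hlogR0 f3 (by positivity)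
  refine final_count N Q A.card (rk K N) M d R T.card
    (∏ i, ((digitSet L η S (p i)).card : ℝ)) (((⌊(d : ℝ) / δ⌋₊ + 1 : ℕ) : ℝ) ^ M) θ'' (b + τ) G
    (((d : ℝ) / δ + 1) ^ M) ((b * β + C' * κ' + ε) * u) δ cδ hR1' hQ0 hN0 rfl hδ0 hd1 rfl
    hθ'' ?_ hprod hTcard ?_ ?_ ?_
  · refine pow_le_pow_left₀ (by positivity) ?_ M
    push_cast
    have := Nat.floor_le (by positivity : 0 ≤ (d : ℝ) / δ)
    linarith
  · exact_mod_cast hAcard
  · exact_mod_cast hcut
  · have := (div_lt_iff₀ h5).1 h1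
    linarith

end Vale.Agent.P057
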