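import Vale.Agent.P057.Inner
import Vale.Agent.P057.Defs
import Mathlib.Data.Nat.ChineseRemainder
import Mathlib.Algebra.Order.Archimedean.Real.Basic

/-!
# The first level: a torus construction governed by a certificate
-/

open Polynomial Finset

namespace Vale.Agent.P057

/-- A certificate for progressions of length `K` in the subset `S` of `[0,1)`: finitely many bounded
functions `g c` and weights `lam c j` with zero sum over `j`, such that for every progression
modulo one that stays in `S` the weighted sum controls the distance of `L` times the step from the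
integers. -/
structure IsCert (K M : ℕ) (g : Fin M → ℝ → ℝ) (lam : Fin M → ℕ → ℝ) (L : ℕ) (κ : ℝ)
    (S : Set ℝ) : Prop where
  L_pos : 0 < L
  kap_pos : 0 < κ
  bdd : ∀ c, ∀ y ∈ S, 0 ≤ g c y ∧ g c y ≤ 1
  sum_zero : ∀ c, ∑ j ∈ range K, lam c j = 0
  main : ∀ (y : ℕ → ℝ) (α : ℝ), (∀ j < K, y j ∈ S) →
    (∀ j < K, ∃ w : ℤ, y j = y 0 + j * α + w) →
    κ * |L * α - round (L * α)| ^ 2 ≤ ∑ c, ∑ j ∈ range K, lam c j * g c (y j)

theorem crt_card {d : ℕ} (p : Fin d → ℕ) (hp0 : ∀ i, 0 < p i)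
    (hco : Pairwise (Function.onFun Nat.Coprime p)) (S : Fin d → Finset ℕ)
    (hS : ∀ i, ∀ x ∈ S i, x < p i) :
    ∏ i, (S i).card ≤
      ((range (∏ i, p i)).filter (fun a => ∀ i, a % p i ∈ S i)).card := by
  classical
  rw [← Fintype.card_piFinset]
  have hco' : Set.Pairwise (↑(Finset.univ : Finset (Fin d))) (Function.onFun Nat.Coprime p) :=
    fun i _ j _ hij => hco hij
  have hne : ∀ i ∈ (Finset.univ : Finset (Fin d)), p i ≠ 0 := fun i _ => (hp0 i).ne'
  have hmod : ∀ x ∈ Fintype.piFinset S, ∀ i,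
      (Nat.chineseRemainderOfFinset x p univ hne hco' : ℕ) % p i = x i := by
    intro x hx i
    have h1 := (Nat.chineseRemainderOfFinset x p univ hne hco').2 i (Finset.mem_univ i)
    have h2 := hS i (x i) (Fintype.mem_piFinset.1 hx i)
    unfold Nat.ModEq at h1
    rw [h1, Nat.mod_eq_of_lt h2]
  refine Finset.card_le_card_of_injOn
    (fun x => (Nat.chineseRemainderOfFinset x p univ hne hco' : ℕ)) ?_ ?_
  · intro x hx
    have hx' : x ∈ Fintype.piFinset S := hx
    rw [Finset.mem_coe, Finset.mem_filter, Finset.mem_range]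
    refine ⟨Nat.chineseRemainderOfFinset_lt_prod x p hne hco', fun i => ?_⟩
    rw [hmod x hx' i]
    exact Fintype.mem_piFinset.1 hx' i
  · intro x hx y hy hxy
    funext i
    rw [← hmod x hx i, ← hmod y hy i]
    have : (Nat.chineseRemainderOfFinset x p univ hne hco' : ℕ) =
      (Nat.chineseRemainderOfFinset y p univ hne hco' : ℕ) := hxy
    rw [this]

theorem pigeon2 {α β : Type*} [DecidableEq β] (s : Finset α) (t : Finset β) (f : α → β)
    (hf : ∀ a ∈ s, f a ∈ t) (ht : t.Nonempty) :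
    ∃ y ∈ t, s.card ≤ t.card * (s.filter (fun a => f a = y)).card := by
  classical
  refine Finset.exists_le_of_sum_le (s := t) (f := fun _ => s.card)
    (g := fun y => t.card * (s.filter (fun a => f a = y)).card) ht ?_
  have h1 : ∑ y ∈ t, t.card * (s.filter (fun a => f a = y)).card = t.card * s.card := by
    rw [← Finset.mul_sum, ← Finset.card_eq_sum_card_fiberwise hf]
  rw [h1, Finset.sum_const, smul_eq_mul]

/-- The kill step: progression with common difference `r` inside the cell is impossible. -/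
theorem kill_step {K M : ℕ} {g : Fin M → ℝ → ℝ} {lam : Fin M → ℕ → ℝ} {L : ℕ} {κ : ℝ} {S : Set ℝ}
    (hcert : IsCert K M g lam L κ S) (hK : 3 ≤ K) {d : ℕ} (p : Fin d → ℕ) (hp0 : ∀ i, 0 < p i)
    (hco : Pairwise (Function.onFun Nat.Coprime p)) (hL : ∀ i, Nat.Coprime (p i) L)
    (η δ : ℝ) (hδ : 0 < δ) (hη : 0 < η)
    (hδη : δ * (∑ c, ∑ j ∈ range K, |lam c j|) < κ * (2 * η) ^ 2)
    (T : Finset ℤ) (hT : PFree K 2 T) (t : Fin M → ℝ) (s : ℤ)
    (a r : ℕ)
    (h1 : ∀ j < K, ∀ i, (((a + j * r) % p i : ℕ) : ℝ) / p i ∈ S)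
    (h2 : ∀ j < K, ∀ i, η * p i ≤ ((L * (a + j * r)) % p i : ℕ) ∧
      (((L * (a + j * r)) % p i : ℕ) : ℝ) ≤ (1 - η) * p i)
    (h3 : ∀ j < K, ∀ c, t c ≤ ∑ i, g c ((((a + j * r) % p i : ℕ) : ℝ) / p i) ∧
      ∑ i, g c ((((a + j * r) % p i : ℕ) : ℝ) / p i) ≤ t c + δ)
    (h4 : ∀ j < K, (∑ i, (((L * (a + j * r)) % p i : ℕ) : ℤ) ^ 2) - s ∈ T) :
    (∏ i, p i) ∣ r := by
  classical
  set y : Fin d → ℕ → ℝ := fun i j => (((a + j * r) % p i : ℕ) : ℝ) / p i with hy
  set α : Fin d → ℝ := fun i => (r : ℝ) / p i with hα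
  have hp0' : ∀ i, (0 : ℝ) < p i := fun i => by exact_mod_cast hp0 i
  -- certificate for each coordinate
  have hc : ∀ i, κ * |L * α i - round (L * α i)| ^ 2 ≤
      ∑ c, ∑ j ∈ range K, lam c j * g c (y i j) := by
    intro i
    refine hcert.main (y i) (α i) (fun j hj => h1 j hj i) (fun j hj => ?_)
    refine ⟨((a / p i : ℕ) : ℤ) - (((a + j * r) / p i : ℕ) : ℤ), ?_⟩
    have e1 : (((a + j * r) % p i : ℕ) : ℝ) = (a + j * r : ℕ) - p i * ((a + j * r) / p i : ℕ) := by
      have := Nat.div_add_mod (a + j * r) (p i)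
      rw [eq_sub_iff_add_eq]
      have h5 : ((p i * ((a + j * r) / p i) + (a + j * r) % p i : ℕ) : ℝ) = (a + j * r : ℕ) := by
        rw [this]
      push_cast at h5 ⊢
      linarith
    have e2 : ((a % p i : ℕ) : ℝ) = a - p i * (a / p i : ℕ) := by
      have := Nat.div_add_mod a (p i)
      rw [eq_sub_iff_add_eq]
      have h5 : ((p i * (a / p i) + a % p i : ℕ) : ℝ) = a := by
        rw [this]
      push_cast at h5 ⊢
      linarith
    simp only [hy, hα, zero_mul, add_zero]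
    rw [e1, e2]
    have := (hp0' i).ne'
    generalize (a + j * r) / p i = u
    generalize a / p i = v
    push_cast
    field_simp
    ring
  -- sum over all coordinates
  have hsum : ∑ i, κ * |L * α i - round (L * α i)| ^ 2 ≤
      δ * (∑ c, ∑ j ∈ range K, |lam c j|) := by
    calc ∑ i, κ * |L * α i - round (L * α i)| ^ 2
        ≤ ∑ i, ∑ c, ∑ j ∈ range K, lam c j * g c (y i j) := Finset.sum_le_sum fun i _ => hc i
      _ = ∑ c, ∑ j ∈ range K, lam c j * (∑ i, g c (y i j)) := by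
          rw [Finset.sum_comm]
          refine Finset.sum_congr rfl fun c _ => ?_
          rw [Finset.sum_comm]
          refine Finset.sum_congr rfl fun j _ => ?_
          rw [Finset.mul_sum]
      _ = ∑ c, ∑ j ∈ range K, lam c j * ((∑ i, g c (y i j)) - t c) := by
          refine Finset.sum_congr rfl fun c _ => ?_
          simp_rw [mul_sub, Finset.sum_sub_distrib]
          rw [← Finset.sum_mul, hcert.sum_zero c]
          ring
      _ ≤ ∑ c, ∑ j ∈ range K, |lam c j| * δ := by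
          refine Finset.sum_le_sum fun c _ => Finset.sum_le_sum fun j hj => ?_
          have h5 := h3 j (Finset.mem_range.1 hj) c
          have h6 : |(∑ i, g c (y i j)) - t c| ≤ δ := by
            rw [abs_le]
            constructor
            · linarith [h5.1]
            · linarith [h5.2]
          calc lam c j * ((∑ i, g c (y i j)) - t c)
              ≤ |lam c j * ((∑ i, g c (y i j)) - t c)| := le_abs_self _
            _ = |lam c j| * |(∑ i, g c (y i j)) - t c| := abs_mul _ _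
            _ ≤ |lam c j| * δ := mul_le_mul_of_nonneg_left h6 (abs_nonneg _)
      _ = δ * (∑ c, ∑ j ∈ range K, |lam c j|) := by
          rw [Finset.mul_sum]
          refine Finset.sum_congr rfl fun c _ => ?_
          rw [Finset.mul_sum]
          refine Finset.sum_congr rfl fun j _ => ?_
          ring
  have hsmall : ∀ i, |L * α i - round (L * α i)| < 2 * η := by
    intro i
    have h5 : κ * |L * α i - round (L * α i)| ^ 2 ≤ ∑ i, κ * |L * α i - round (L * α i)| ^ 2 :=
      Finset.single_le_sum (f := fun i => κ * |L * α i - round (L * α i)| ^ 2)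
        (fun i _ => mul_nonneg hcert.kap_pos.le (sq_nonneg _)) (Finset.mem_univ i)
    have h6 : κ * |L * α i - round (L * α i)| ^ 2 < κ * (2 * η) ^ 2 :=
      lt_of_le_of_lt (h5.trans hsum) hδη
    have h7 := lt_of_mul_lt_mul_left h6 hcert.kap_pos.le
    exact lt_of_pow_lt_pow_left₀ 2 (by positivity) h7
  -- the second coordinates form genuine progressions
  set ρ : Fin d → ℤ := fun i => (L * r : ℕ) - p i * round (L * α i) with hρ
  have hρabs : ∀ i, |((ρ i : ℤ) : ℝ)| < 2 * η * p i := by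
    intro i
    have h5 : ((ρ i : ℤ) : ℝ) = p i * (L * α i - round (L * α i)) := by
      simp only [hρ, hα]
      push_cast
      have := (hp0' i).ne'
      field_simp
    rw [h5, abs_mul, abs_of_pos (hp0' i), mul_comm]
    exact mul_lt_mul_of_pos_right (hsmall i) (hp0' i)
  set W : Fin d → ℕ → ℤ := fun i j => (((L * (a + j * r)) % p i : ℕ) : ℤ) with hW
  have hstep : ∀ i j, j + 1 < K → W i (j + 1) = W i j + ρ i := by
    intro i j hj
    have hdvd : (p i : ℤ) ∣ W i (j + 1) - W i j - ρ i := by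
      have f1 : ∀ n : ℕ, ∃ u : ℤ, ((n % p i : ℕ) : ℤ) = n - p i * u := fun n => ⟨(n / p i : ℕ), by
        have := Nat.div_add_mod n (p i)
        have h5 : ((p i * (n / p i) + n % p i : ℕ) : ℤ) = n := by rw [this]
        push_cast at h5 ⊢
        linarith⟩
      obtain ⟨u, hu⟩ := f1 (L * (a + (j + 1) * r))
      obtain ⟨v, hv⟩ := f1 (L * (a + j * r))
      refine ⟨v - u + round (L * α i), ?_⟩
      simp only [hW, hρ]
      rw [hu, hv]
      push_cast
      ring
    have habs : |W i (j + 1) - W i j - ρ i| < p i := by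
      have g1 := h2 (j + 1) hj i
      have g2 := h2 j (by omega) i
      have g3 := abs_lt.1 (hρabs i)
      have g4 : |((W i (j + 1) - W i j - ρ i : ℤ) : ℝ)| < p i := by
        simp only [hW]
        push_cast [-Int.natCast_mod, -Int.natCast_emod]
        rw [abs_lt]
        constructor
        · linarith [g1.1, g2.2, g3.2]
        · linarith [g1.2, g2.1, g3.1]
      have g5 : ((|W i (j + 1) - W i j - ρ i| : ℤ) : ℝ) < ((p i : ℤ) : ℝ) := by
        rw [Int.cast_abs]; simpa using g4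
      exact_mod_cast g5
    have := Int.eq_zero_of_abs_lt_dvd hdvd habs
    linarith
  have hlin : ∀ i j, j < K → W i j = W i 0 + j * ρ i := by
    intro i j
    induction j with
    | zero => intro _; simp
    | succ j ih =>
      intro hj
      rw [hstep i j hj, ih (by omega)]
      push_cast
      ring
  -- quadratic progression in T
  have hP := hT (∑ i, (C ((W i 0 : ℤ) : ℚ) + C ((ρ i : ℤ) : ℚ) * X) ^ 2 - C (s : ℚ)) (by
    rw [natDegree_sub_C]
    refine natDegree_sum_le_of_forall_le _ _ fun i _ => ?_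
    refine natDegree_pow_le.trans (Nat.mul_le_mul_left 2 (?_ : _ ≤ 1))
    refine natDegree_add_le_of_degree_le (by simp) ?_
    exact (natDegree_C_mul_le _ _).trans natDegree_X_le) (by
    intro j hj
    refine ⟨_, h4 j hj, ?_⟩
    simp only [eval_sub, eval_finsetSum, eval_pow, eval_C, eval_add, eval_mul, eval_X]
    push_cast
    congr 1
    refine Finset.sum_congr rfl fun i _ => ?_
    have := hlin i j hj
    have h5 : (((W i j : ℤ)) : ℚ) = W i 0 + j * ρ i := by rw [this]; push_cast; ring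
    simp only [hW] at h5 ⊢
    push_cast at h5 ⊢
    rw [h5]
    ring)
  have hP1 := hP 1 (by omega)
  have hP2 := hP 2 (by omega)
  simp only [eval_sub, eval_finsetSum, eval_pow, eval_C, eval_add, eval_mul, eval_X] at hP1 hP2
  have hρ0 : ∑ i, ((ρ i : ℤ) : ℚ) ^ 2 = 0 := by
    have e1 : ∑ i, (((W i 0 : ℤ) : ℚ) + ((ρ i : ℤ) : ℚ) * (2 : ℕ)) ^ 2 -
        2 * ∑ i, (((W i 0 : ℤ) : ℚ) + ((ρ i : ℤ) : ℚ) * (1 : ℕ)) ^ 2 +
        ∑ i, (((W i 0 : ℤ) : ℚ) + ((ρ i : ℤ) : ℚ) * 0) ^ 2 = 2 * ∑ i, ((ρ i : ℤ) : ℚ) ^ 2 := by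
      rw [Finset.mul_sum, Finset.mul_sum, ← Finset.sum_sub_distrib, ← Finset.sum_add_distrib]
      refine Finset.sum_congr rfl fun i _ => ?_
      push_cast
      ring
    linarith
  have hρ1 : ∀ i, ρ i = 0 := by
    intro i
    have := (Finset.sum_eq_zero_iff_of_nonneg (fun i _ => sq_nonneg ((ρ i : ℤ) : ℚ))).1 hρ0 i
      (Finset.mem_univ _)
    have h5 : ((ρ i : ℤ) : ℚ) = 0 := by simpa using this
    exact_mod_cast h5
  -- divisibility
  have hdv : ∀ i, p i ∣ r := by
    intro i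
    have h5 := hρ1 i
    have h6 : (p i : ℤ) ∣ ((L * r : ℕ) : ℤ) := ⟨round (L * α i), by
      simp only [hρ] at h5; linarith⟩
    have h7 : p i ∣ L * r := by exact_mod_cast h6
    exact (hL i).dvd_of_dvd_mul_left h7
  have h8 : (∏ i, (p i : ℤ)) ∣ (r : ℤ) :=
    Finset.prod_dvd_of_coprime
      (fun i _ j _ hij => Nat.isCoprime_iff_coprime.2 (hco hij))
      (fun i _ => by exact_mod_cast hdv i)
  exact_mod_cast h8

theorem first_step {K M : ℕ} {g : Fin M → ℝ → ℝ} {lam : Fin M → ℕ → ℝ} {L : ℕ} {κ : ℝ} {S : Set ℝ}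
    (hcert : IsCert K M g lam L κ S) (hK : 3 ≤ K) {d : ℕ} (p : Fin d → ℕ) (hp0 : ∀ i, 0 < p i)
    (hco : Pairwise (Function.onFun Nat.Coprime p)) (hL : ∀ i, Nat.Coprime (p i) L)
    (η δ : ℝ) (hδ : 0 < δ) (hη : 0 < η)
    (hδη : δ * (∑ c, ∑ j ∈ range K, |lam c j|) < κ * (2 * η) ^ 2)
    (T : Finset ℤ) (R : ℕ) (hT0 : ∀ t ∈ T, 0 ≤ t ∧ t < R) (hT : PFree K 2 T)
    (B : Fin d → Finset ℕ) (hB : ∀ i, ∀ x ∈ B i, x < p i ∧ (x : ℝ) / p i ∈ S ∧
      η * p i ≤ ((L * x) % p i : ℕ) ∧ (((L * x) % p i : ℕ) : ℝ) ≤ (1 - η) * p i) :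
    ∃ A : Finset ℕ, (∀ a ∈ A, a < ∏ i, p i) ∧ APFree K A ∧
      (∏ i, (B i).card) * T.card ≤
        (⌊(d : ℝ) / δ⌋₊ + 1) ^ M * ((∑ i, p i ^ 2) + 1 + R) * A.card := by
  classical
  set X := (range (∏ i, p i)).filter (fun a => ∀ i, a % p i ∈ B i) with hX
  have hXcard : ∏ i, (B i).card ≤ X.card := crt_card p hp0 hco B fun i x hx => (hB i x hx).1
  have hmem : ∀ a ∈ X, ∀ i, a % p i ∈ B i := fun a ha => (Finset.mem_filter.1 ha).2
  have hSmem : ∀ a ∈ X, ∀ i, ((a % p i : ℕ) : ℝ) / p i ∈ S := fun a ha i =>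
    (hB i _ (hmem a ha i)).2.1
  -- windows
  set F : ℕ → Fin M → ℕ := fun a c => ⌊(∑ i, g c (((a % p i : ℕ) : ℝ) / p i)) / δ⌋₊ with hF
  obtain ⟨y, hy, hycard⟩ := pigeon2 X (Fintype.piFinset fun _ : Fin M => range (⌊(d : ℝ) / δ⌋₊ + 1))
    F (by
      intro a ha
      rw [Fintype.mem_piFinset]
      intro c
      rw [Finset.mem_range, Nat.lt_succ_iff]
      refine Nat.floor_le_floor ?_
      refine div_le_div_of_nonneg_right ?_ hδ.le
      calc ∑ i, g c (((a % p i : ℕ) : ℝ) / p i) ≤ ∑ _i : Fin d, (1 : ℝ) :=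
            Finset.sum_le_sum fun i _ => (hcert.bdd c _ (hSmem a ha i)).2
        _ = d := by simp) ⟨fun _ => 0, by simp⟩
  set Y := X.filter (fun a => F a = y) with hY
  obtain ⟨s, hs⟩ := pigeon Y (fun a => ∑ i, (((L * a) % p i : ℕ) : ℤ) ^ 2) ((∑ i, p i ^ 2) + 1) R T
    (by
      intro a _
      refine ⟨Finset.sum_nonneg fun i _ => sq_nonneg _, ?_⟩
      have h1 : ∑ i, (((L * a) % p i : ℕ) : ℤ) ^ 2 ≤ ∑ i, (p i : ℤ) ^ 2 :=
        Finset.sum_le_sum fun i _ => pow_le_pow_left₀ (Int.natCast_nonneg _)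
          (by exact_mod_cast (Nat.mod_lt _ (hp0 i)).le) 2
      push_cast at h1 ⊢
      linarith) hT0
  set A := Y.filter (fun a => (∑ i, (((L * a) % p i : ℕ) : ℤ) ^ 2) - s ∈ T) with hA
  have hAY : ∀ a ∈ A, a ∈ Y := fun a ha => (Finset.mem_filter.1 ha).1
  have hYX : ∀ a ∈ Y, a ∈ X := fun a ha => (Finset.mem_filter.1 ha).1
  refine ⟨A, ?_, ?_, ?_⟩
  · intro a ha
    exact Finset.mem_range.1 (Finset.mem_filter.1 (hYX a (hAY a ha))).1
  · intro a r hr hall
    have hlt : a + 1 * r < ∏ i, p i :=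
      Finset.mem_range.1 (Finset.mem_filter.1 (hYX _ (hAY _ (hall 1 (by omega))))).1
    have hdvd : (∏ i, p i) ∣ r := by
      refine kill_step hcert hK p hp0 hco hL η δ hδ hη hδη T hT (fun c => δ * y c) s a r ?_ ?_ ?_ ?_
      · intro j hj i
        exact hSmem _ (hYX _ (hAY _ (hall j hj))) i
      · intro j hj i
        have h1 := (hB i _ (hmem _ (hYX _ (hAY _ (hall j hj))) i)).2.2
        rwa [Nat.mul_mod, Nat.mod_mod, ← Nat.mul_mod] at h1
      · intro j hj c
        have h1 : F (a + j * r) = y := (Finset.mem_filter.1 (hAY _ (hall j hj))).2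
        have h2 : ⌊(∑ i, g c ((((a + j * r) % p i : ℕ) : ℝ) / p i)) / δ⌋₊ = y c := congrFun h1 c
        have h3 : 0 ≤ (∑ i, g c ((((a + j * r) % p i : ℕ) : ℝ) / p i)) / δ :=
          div_nonneg (Finset.sum_nonneg fun i _ =>
            (hcert.bdd c _ (hSmem _ (hYX _ (hAY _ (hall j hj))) i)).1) hδ.le
        have h4 := Nat.floor_le h3
        have h5 := Nat.lt_floor_add_one ((∑ i, g c ((((a + j * r) % p i : ℕ) : ℝ) / p i)) / δ)
        rw [h2] at h4 h5
        rw [le_div_iff₀ hδ] at h4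
        rw [div_lt_iff₀ hδ] at h5
        constructor
        · linarith
        · linarith
      · intro j hj
        exact (Finset.mem_filter.1 (hall j hj)).2
    exact absurd (Nat.le_of_dvd hr hdvd) (by omega)
  · have hcardpi : (Fintype.piFinset fun _ : Fin M => range (⌊(d : ℝ) / δ⌋₊ + 1)).card =
        (⌊(d : ℝ) / δ⌋₊ + 1) ^ M := by simp
    rw [hcardpi] at hycard
    calc (∏ i, (B i).card) * T.card ≤ X.card * T.card := Nat.mul_le_mul_right _ hXcard
      _ ≤ ((⌊(d : ℝ) / δ⌋₊ + 1) ^ M * Y.card) * T.card := Nat.mul_le_mul_right _ hycard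
      _ = (⌊(d : ℝ) / δ⌋₊ + 1) ^ M * (Y.card * T.card) := by ring
      _ ≤ (⌊(d : ℝ) / δ⌋₊ + 1) ^ M * (((∑ i, p i ^ 2) + 1 + R) * A.card) :=
          Nat.mul_le_mul_left _ hs
      _ = _ := by ring

end Vale.Agent.P057
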