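import Vale.Agent.P057.Newton

/-!
# Polynomial-progression-free sets: the digit construction
-/

open Polynomial Finset fwdDiff

namespace Vale.Agent.P057

/-- `A` contains no nonconstant polynomial progression of degree at most `D` and length `K`. -/
def PFree (K D : ℕ) (A : Finset ℤ) : Prop :=
  ∀ P : ℚ[X], P.natDegree ≤ D → (∀ j < K, ∃ a ∈ A, P.eval (j : ℚ) = (a : ℚ)) →
    ∀ j < K, P.eval (j : ℚ) = P.eval 0

theorem digits_zero_fin (q : ℤ) : ∀ (d : ℕ) (c : Fin d → ℤ), (∀ i, |c i| < q) →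
    ∑ i, c i * q ^ (i : ℕ) = 0 → ∀ i, c i = 0 := by
  intro d c hc hs i
  have := digits_zero q d (fun i => if h : i < d then c ⟨i, h⟩ else 0)
    (fun i hi => by simpa [hi] using hc ⟨i, hi⟩)
    (by rw [Finset.sum_range]; simpa using hs) i i.2
  simpa using this

/-- Pigeonhole for translates. -/
theorem pigeon {α : Type*} (X : Finset α) (f : α → ℤ) (U R : ℕ) (T : Finset ℤ)
    (hf : ∀ x ∈ X, 0 ≤ f x ∧ f x < U) (hT : ∀ t ∈ T, 0 ≤ t ∧ t < R) :
    ∃ s : ℤ, X.card * T.card ≤ (U + R) * (X.filter (fun x => f x - s ∈ T)).card := by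
  classical
  rcases Nat.eq_zero_or_pos (U + R) with h0 | h0
  · have hR : R = 0 := by omega
    have : T = ∅ := by
      refine Finset.eq_empty_of_forall_notMem fun t ht => ?_
      have := hT t ht
      subst hR
      simp at this
      omega
    refine ⟨0, ?_⟩
    simp [this]
  · set S : Finset ℤ := Finset.Ico (-(R : ℤ)) U with hS
    have hcard : S.card = U + R := by
      rw [hS, Int.card_Ico]; omega
    have hne : S.Nonempty := by
      rw [← Finset.card_pos, hcard]; exact h0
    have hsum : ∑ s ∈ S, (X.filter (fun x => f x - s ∈ T)).card = X.card * T.card := by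
      simp_rw [Finset.card_filter]
      rw [Finset.sum_comm]
      have : ∀ x ∈ X, ∑ s ∈ S, (if f x - s ∈ T then 1 else 0) = T.card := by
        intro x hx
        rw [← Finset.card_filter]
        refine Finset.card_bij' (fun s _ => f x - s) (fun t _ => f x - t) ?_ ?_ ?_ ?_
        · intro s hs
          exact (Finset.mem_filter.1 hs).2
        · intro t ht
          rw [Finset.mem_filter]
          refine ⟨?_, by simpa using ht⟩
          rw [hS, Finset.mem_Ico]
          have h1 := hf x hx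
          have h2 := hT t ht
          constructor <;> omega
        · intro s _; ring
        · intro s _; ring
      rw [Finset.sum_congr rfl this]
      simp
    obtain ⟨s, -, hs⟩ := Finset.exists_le_of_sum_le (s := S) (f := fun _ => X.card * T.card)
      (g := fun s => (U + R) * (X.filter (fun x => f x - s ∈ T)).card) hne (by
        have h1 : ∑ s ∈ S, (U + R) * (X.filter (fun x => f x - s ∈ T)).card =
            (U + R) * (X.card * T.card) := by rw [← Finset.mul_sum, hsum]
        rw [h1, Finset.sum_const, hcard, smul_eq_mul])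
    exact ⟨s, hs⟩

/-- If a sum of squares of rational polynomials is constant, each of them is constant. -/
theorem sq_const {ι : Type*} [Fintype ι] (P : ι → ℚ[X]) (c : ℚ)
    (h : ∑ i, P i ^ 2 = C c) (i : ι) : (P i).natDegree = 0 := by
  classical
  by_contra hi
  set e := Finset.univ.sup fun i => (P i).natDegree with he
  have hle : ∀ i, (P i).natDegree ≤ e := fun i =>
    Finset.le_sup (f := fun i => (P i).natDegree) (Finset.mem_univ i)
  have hepos : 0 < e := lt_of_lt_of_le (Nat.pos_of_ne_zero hi) (hle i)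
  obtain ⟨i0, -, hi0⟩ := Finset.exists_mem_eq_sup (Finset.univ : Finset ι) ⟨i, Finset.mem_univ i⟩
    fun i => (P i).natDegree
  have hc : (∑ i, P i ^ 2).coeff (2 * e) = 0 := by
    rw [h, coeff_C]
    simp
    omega
  rw [finsetSum_coeff] at hc
  have h2 : ∀ i, (P i ^ 2).coeff (2 * e) = (P i).coeff e ^ 2 := by
    intro i
    have := coeff_pow_of_natDegree_le (m := 2) (hle i)
    rw [← this]
  simp_rw [h2] at hc
  have h3 := (Finset.sum_eq_zero_iff_of_nonneg (fun i _ => sq_nonneg ((P i).coeff e))).1 hc i0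
    (Finset.mem_univ _)
  have h4 : (P i0).coeff e = 0 := by simpa using h3
  rw [he, hi0] at h4
  have h5 : (P i0) = 0 := leadingCoeff_eq_zero.1 h4
  rw [← he] at hi0
  rw [h5] at hi0
  simp at hi0
  omega

/-- Encoding of digit vectors. -/
def enc (q : ℤ) {d : ℕ} (x : Fin d → ℤ) : ℤ := ∑ i, x i * q ^ (i : ℕ)

theorem enc_nonneg (q : ℤ) (hq : 0 ≤ q) {d : ℕ} (x : Fin d → ℤ) (hx : ∀ i, 0 ≤ x i) :
    0 ≤ enc q x :=
  Finset.sum_nonneg fun i _ => mul_nonneg (hx i) (pow_nonneg hq _)

theorem enc_lt (q : ℤ) (hq : 0 < q) : ∀ {d : ℕ} (x : Fin d → ℤ), (∀ i, x i ≤ q - 1) →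
    enc q x < q ^ d := by
  intro d
  induction d with
  | zero => intro x _; simp [enc]
  | succ d ih =>
    intro x hx
    unfold enc
    rw [Fin.sum_univ_castSucc]
    have h1 := ih (fun i => x i.castSucc) (fun i => hx _)
    unfold enc at h1
    simp only [Fin.val_castSucc, Fin.val_last]
    have h2 : x (Fin.last d) * q ^ d ≤ (q - 1) * q ^ d :=
      mul_le_mul_of_nonneg_right (hx _) (pow_nonneg hq.le _)
    calc _ < q ^ d + (q - 1) * q ^ d := by linarith
      _ = q ^ (d + 1) := by ring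

theorem enc_inj (q : ℤ) {d : ℕ} (x y : Fin d → ℤ) (hx : ∀ i, 0 ≤ x i ∧ x i < q)
    (hy : ∀ i, 0 ≤ y i ∧ y i < q) (h : enc q x = enc q y) : x = y := by
  have h1 : ∑ i, (x i - y i) * q ^ (i : ℕ) = 0 := by
    unfold enc at h
    simp_rw [sub_mul, Finset.sum_sub_distrib]
    linarith
  funext i
  have := digits_zero_fin q d (fun i => x i - y i) (fun i => by
    rw [abs_lt]; constructor <;> linarith [(hx i).1, (hx i).2, (hy i).1, (hy i).2]) h1 i
  linarith

theorem inner_step (K D d m R : ℕ) (hK : 2 * D < K) (hm : 0 < m) (T : Finset ℤ)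
    (hT0 : ∀ t ∈ T, 0 ≤ t ∧ t < R) (hT : PFree K (2 * D) T) :
    ∃ A : Finset ℤ, (∀ a ∈ A, 0 ≤ a ∧ a < ((2 ^ D * m : ℕ) : ℤ) ^ d) ∧ PFree K D A ∧
      m ^ d * T.card ≤ (d * m ^ 2 + 1 + R) * A.card := by
  classical
  set q : ℤ := ((2 ^ D * m : ℕ) : ℤ) with hq
  have hmq : (m : ℤ) ≤ q := by
    rw [hq]; push_cast
    have : (1 : ℤ) ≤ 2 ^ D := one_le_pow₀ (by norm_num)
    nlinarith [(Int.natCast_nonneg m)]
  have hm' : (0 : ℤ) < m := by exact_mod_cast hm
  have hqpos : 0 < q := lt_of_lt_of_le hm' hmq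
  set X : Finset (Fin d → ℤ) := Fintype.piFinset fun _ => Finset.Ico (0 : ℤ) m with hX
  have hXmem : ∀ x ∈ X, ∀ i, 0 ≤ x i ∧ x i < m := by
    intro x hx i
    have := Fintype.mem_piFinset.1 hx i
    exact Finset.mem_Ico.1 this
  have hXcard : X.card = m ^ d := by
    rw [hX, Fintype.card_piFinset]
    simp
  obtain ⟨s, hs⟩ := pigeon X (fun x => ∑ i, x i ^ 2) (d * m ^ 2 + 1) R T (by
    intro x hx
    refine ⟨Finset.sum_nonneg fun i _ => sq_nonneg _, ?_⟩
    have h1 : ∑ i, x i ^ 2 ≤ ∑ _i : Fin d, (m : ℤ) ^ 2 :=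
      Finset.sum_le_sum fun i _ => pow_le_pow_left₀ (hXmem x hx i).1 (hXmem x hx i).2.le 2
    simp only [Finset.sum_const, Finset.card_univ, Fintype.card_fin, nsmul_eq_mul] at h1
    push_cast
    linarith) hT0
  set Y := X.filter (fun x => ∑ i, x i ^ 2 - s ∈ T) with hY
  have hinj : Set.InjOn (enc q) (X : Set (Fin d → ℤ)) := by
    intro x hx y hy hxy
    exact enc_inj q x y (fun i => ⟨(hXmem x hx i).1, (hXmem x hx i).2.trans_le hmq⟩)
      (fun i => ⟨(hXmem y hy i).1, (hXmem y hy i).2.trans_le hmq⟩) hxy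
  refine ⟨Y.image (enc q), ?_, ?_, ?_⟩
  · intro a ha
    obtain ⟨x, hx, rfl⟩ := Finset.mem_image.1 ha
    have hxX := (Finset.mem_filter.1 hx).1
    refine ⟨enc_nonneg q hqpos.le x fun i => (hXmem x hxX i).1, ?_⟩
    refine enc_lt q hqpos x fun i => ?_
    have := (hXmem x hxX i).2
    omega
  · intro P hP hPA
    -- choose digit vectors
    have h1 : ∀ j, ∃ x : Fin d → ℤ, (∀ i, 0 ≤ x i ∧ x i < m) ∧
        (j < K → x ∈ Y ∧ P.eval (j : ℚ) = ((enc q x : ℤ) : ℚ)) := by
      intro j
      by_cases hj : j < K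
      · obtain ⟨a, ha, hPa⟩ := hPA j hj
        obtain ⟨x, hx, rfl⟩ := Finset.mem_image.1 ha
        exact ⟨x, hXmem x (Finset.mem_filter.1 hx).1, fun _ => ⟨hx, hPa⟩⟩
      · exact ⟨fun _ => 0, fun i => ⟨le_refl _, hm'⟩, fun h => absurd h hj⟩
    choose x hx0 hx1 using h1
    -- differences vanish
    have h2 : ∀ j, j + D + 1 < K → ∀ i, (fwdDiff 1)^[D + 1] (fun j => x j i) j = 0 := by
      intro j hj
      refine digits_zero_fin q d _ (fun i => ?_) ?_
      · refine lt_of_le_of_lt (fwdDiff_abs_lt m (fun j => x j i) (fun j => (hx0 j i).1)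
          (fun j => (hx0 j i).2) D j) ?_
        rw [hq]; push_cast
        have : (0 : ℤ) < 2 ^ D := by positivity
        nlinarith
      · have h3 : ((∑ i, (fwdDiff 1)^[D + 1] (fun j => x j i) j * q ^ (i : ℕ) : ℤ) : ℚ) =
            (fwdDiff 1)^[D + 1] P.eval (j : ℚ) := by
          simp only [fwdDiff_iter_eq_sum_shift, smul_eq_mul, mul_one]
          push_cast
          simp_rw [Finset.sum_mul]
          rw [Finset.sum_comm]
          refine Finset.sum_congr rfl fun k hk => ?_
          have hk' := Finset.mem_range.1 hk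
          have h4 := (hx1 (j + k) (by omega)).2
          simp only [nsmul_eq_mul, mul_one, zsmul_eq_mul]
          rw [show ((j : ℚ) + (k : ℚ)) = (((j + k : ℕ) : ℕ) : ℚ) by push_cast; ring, h4]
          unfold enc
          push_cast
          rw [Finset.mul_sum]
          refine Finset.sum_congr rfl fun i _ => by ring
        rw [Polynomial.fwdDiff_iter_eq_zero_of_degree_lt (by omega)] at h3
        have h5 : ((∑ i, (fwdDiff 1)^[D + 1] (fun j => x j i) j * q ^ (i : ℕ) : ℤ) : ℚ) = 0 := by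
          rw [h3]; rfl
        exact_mod_cast h5
    -- each digit sequence is a polynomial
    have h6 : ∀ i, ∃ p : ℚ[X], p.natDegree ≤ D ∧ ∀ j < K, p.eval (j : ℚ) = ((x j i : ℤ) : ℚ) := by
      intro i
      refine newton K D (fun j => ((x j i : ℤ) : ℚ)) fun j hj => ?_
      have h7 : (fwdDiff 1)^[D + 1] (fun j => ((x j i : ℤ) : ℚ)) j =
          (((fwdDiff 1)^[D + 1] (fun j => x j i) j : ℤ) : ℚ) := by
        simp only [fwdDiff_iter_eq_sum_shift, smul_eq_mul, mul_one]
        push_cast
        simp [zsmul_eq_mul]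
      rw [h7, h2 j hj i]
      simp
    choose p hp0 hp1 using h6
    -- the sum of squares
    have hdeg : (∑ i, p i ^ 2).natDegree ≤ 2 * D :=
      natDegree_sum_le_of_forall_le _ _ fun i _ =>
        natDegree_pow_le.trans (Nat.mul_le_mul_left 2 (hp0 i))
    have h8 := hT (∑ i, p i ^ 2 - C (s : ℚ)) (by rw [natDegree_sub_C]; exact hdeg) (by
      intro j hj
      refine ⟨∑ i, x j i ^ 2 - s, (Finset.mem_filter.1 (hx1 j hj).1).2, ?_⟩
      simp only [eval_sub, eval_finsetSum, eval_pow, eval_C]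
      push_cast
      simp_rw [hp1 _ j hj])
    have h9 : ∑ i, p i ^ 2 = C (eval 0 (∑ i, p i ^ 2)) := by
      rw [← sub_eq_zero]
      refine eq_zero_of_natDegree_lt_card_of_eval_eq_zero _ (f := fun j : Fin K => ((j : ℕ) : ℚ))
        (fun a b hab => by
          have : ((a : ℕ) : ℚ) = ((b : ℕ) : ℚ) := hab
          exact Fin.ext (by exact_mod_cast this)) (fun j => ?_) ?_
      · have := h8 j j.2
        simp only [eval_sub, eval_C] at this ⊢
        linarith
      · rw [natDegree_sub_C, Fintype.card_fin]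
        omega
    have h10 : ∀ i, ∀ j < K, x j i = x 0 i := by
      intro i j hj
      have h11 := natDegree_eq_zero.1 (sq_const p _ h9 i)
      obtain ⟨c, hc⟩ := h11
      have h12 := hp1 i j hj
      have h13 := hp1 i 0 (by omega)
      rw [← hc, eval_C] at h12 h13
      rw [h12] at h13
      exact_mod_cast h13
    intro j hj
    rw [(hx1 j hj).2]
    have h14 := (hx1 0 (by omega)).2
    rw [Nat.cast_zero] at h14
    rw [h14]
    congr 2
    funext i
    exact h10 i j hj
  · rw [Finset.card_image_of_injOn (hinj.mono fun x hx => (Finset.mem_filter.1 hx).1)]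
    rw [← hXcard]
    exact hs

end Vale.Agent.P057
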