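import Vale.Agent.P057.Final

/-!
# Optimised parameters
-/

open Filter Topology Finset

namespace Vale.Agent.P057

/-- The optimal choice of the free parameter. -/
theorem opt (n : ℕ) (hn : 1 ≤ n) (b E : ℝ) (hb : 0 < b) (hE : 0 < E) :
    ∃ β > (0 : ℝ), b * β + (n * E ^ (1 / (n : ℝ))) * (2 / β) ^ (1 / (n : ℝ)) =
      ((n + 1 : ℕ) : ℝ) * (2 * b * E) ^ (1 / ((n + 1 : ℕ) : ℝ)) := by
  set z : ℝ := (2 * b * E) ^ (1 / ((n + 1 : ℕ) : ℝ)) with hz
  have hz0 : 0 < z := Real.rpow_pos_of_pos (by positivity) _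
  refine ⟨z / b, by positivity, ?_⟩
  have h1 : z ^ (n + 1) = 2 * b * E := by
    rw [hz, one_div]
    exact Real.rpow_inv_natCast_pow (by positivity) (by omega)
  have h2 : E ^ (1 / (n : ℝ)) * (2 / (z / b)) ^ (1 / (n : ℝ)) = z := by
    rw [← Real.mul_rpow hE.le (by positivity)]
    have : E * (2 / (z / b)) = z ^ n := by
      field_simp
      rw [← pow_succ', h1]
      ring
    rw [this, one_div]
    exact Real.pow_rpow_inv_natCast hz0.le (by omega)
  rw [mul_assoc, h2]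
  push_cast
  field_simp
  ring

/-- The constant of the level `n` set for degree `D`. -/
noncomputable def En (n : ℕ) (D : ℝ) : ℝ := D ^ (n - 1) * 2 ^ (n * (n - 1) / 2)

theorem tri (n : ℕ) : (n + 1) * n / 2 = n + n * (n - 1) / 2 := by
  have h := Nat.triangle_succ n
  rw [Nat.add_sub_cancel] at h
  rw [h, Nat.add_comm]

theorem En_succ (n : ℕ) (hn : 1 ≤ n) (D : ℝ) : En (n + 1) D = 2 * D * En n (2 * D) := by
  obtain ⟨m, rfl⟩ : ∃ m, n = m + 1 := ⟨n - 1, by omega⟩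
  unfold En
  rw [Nat.add_sub_cancel, Nat.add_sub_cancel, tri (m + 1), Nat.add_sub_cancel, mul_pow]
  ring

theorem lev_all (K : ℕ) : ∀ n : ℕ, 1 ≤ n → ∀ D : ℕ, 1 ≤ D → 2 ^ (n - 1) * D < K →
    Lev n (n * (En n D) ^ (1 / (n : ℝ))) K D := by
  intro n hn
  induction n, hn using Nat.le_induction with
  | base =>
    intro D _ _
    have : ((1 : ℕ) : ℝ) * (En 1 D) ^ (1 / ((1 : ℕ) : ℝ)) = 1 := by simp [En]
    rw [this]
    exact lev_one K D
  | succ n hn ih =>
    intro D hD hK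
    rw [Nat.add_sub_cancel] at hK
    have h2 : 2 ^ (n - 1) * (2 * D) < K := by
      have : 2 ^ n = 2 ^ (n - 1) * 2 := by
        rw [← pow_succ]; congr 1; omega
      rw [this] at hK
      linarith
    have h3 : 2 * D < K := by
      have : 1 ≤ 2 ^ (n - 1) := Nat.one_le_two_pow
      nlinarith
    have h1 := ih (2 * D) (by omega) h2
    have hD0 : (0 : ℝ) < D := by exact_mod_cast hD
    have hE : 0 < En n (2 * D) := by unfold En; positivity
    obtain ⟨β, hβ, hβ2⟩ := opt n hn D (En n (2 * D)) hD0 hE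
    push_cast at h1
    have h4 := lev_step (C' := n * (En n (2 * D)) ^ (1 / (n : ℝ))) hn (by positivity) h3 h1 β hβ
    rw [hβ2, ← En_succ n hn] at h4
    exact h4

/-- General bound from a certificate, with optimised constants. -/
theorem bound_of_cert {K M : ℕ} {g : Fin M → ℝ → ℝ} {lam : Fin M → ℕ → ℝ} {L : ℕ} {κ : ℝ}
    {S : Set ℝ} (hcert : IsCert K M g lam L κ S) (θ : ℝ) (hθ0 : 0 < θ) (hθ1 : θ < 1)
    (hcount : ∀ θ' < θ, ∀ᶠ p : ℕ in atTop, θ' * p ≤ (cnt S p : ℝ))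
    (n : ℕ) (hn : 3 ≤ n) (hK : 2 ^ (n - 1) < K) (ε : ℝ) (hε : 0 < ε) :
    ∀ᶠ N : ℕ in atTop, (N : ℝ) * 2 ^ (-((n * 2 ^ (((n : ℝ) - 1) / 2) *
      (Real.logb 2 (1 / θ)) ^ (1 / (n : ℝ)) + ε) * (Real.logb 2 N) ^ (1 / (n : ℝ)))) ≤ rk K N := by
  obtain ⟨m, rfl⟩ : ∃ m, n = m + 1 := ⟨n - 1, by omega⟩
  rw [Nat.add_sub_cancel] at hK
  have hm : 2 ≤ m := by omega
  have hK3 : 3 ≤ K := by
    have : 2 ^ 2 ≤ 2 ^ m := Nat.pow_le_pow_right (by norm_num) hm
    omega
  set b : ℝ := Real.logb 2 (1 / θ) with hb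
  have hb0 : 0 < b := by
    refine Real.logb_pos (by norm_num) ?_
    rw [lt_div_iff₀ hθ0]; linarith
  have h1 := lev_all K m (by omega) 2 (by norm_num) (by
    have : 2 ^ m = 2 ^ (m - 1) * 2 := by
      rw [← pow_succ]; congr 1; omega
    omega)
  have hE : 0 < En m 2 := by unfold En; positivity
  obtain ⟨β, hβ, hβ2⟩ := opt m (by omega) b (En m 2) hb0 hE
  have h2 := final_asym hcert hK3 θ hθ0 hθ1.le hcount hm
    (C' := m * (En m 2) ^ (1 / (m : ℝ))) (by positivity) (by exact_mod_cast h1) β hβ ε hε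
  rw [← hb, hβ2] at h2
  have h3 : (2 * b * En m 2) ^ (1 / ((m + 1 : ℕ) : ℝ)) =
      2 ^ ((((m + 1 : ℕ) : ℝ) - 1) / 2) * b ^ (1 / ((m + 1 : ℕ) : ℝ)) := by
    have e1 : 2 * b * En m 2 = 2 ^ ((m + 1) * m / 2) * b := by
      unfold En
      rw [tri m, pow_add]
      have : (2 : ℝ) ^ m = 2 * 2 ^ (m - 1) := by
        rw [← pow_succ']; congr 1; omega
      rw [this]; ring
    rw [e1, Real.mul_rpow (by positivity) hb0.le, ← Real.rpow_natCast 2, ← Real.rpow_mul
      (by norm_num)]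
    congr 2
    have e2 : (((m + 1) * m / 2 : ℕ) : ℝ) = ((m : ℝ) + 1) * m / 2 := by
      have h4 : (m + 1) * m / 2 * 2 = (m + 1) * m :=
        Nat.div_mul_cancel (by
          have := Nat.even_mul_succ_self m
          rw [Nat.mul_comm] at this
          exact this.two_dvd)
      have h5 : (((m + 1) * m / 2 : ℕ) : ℝ) * 2 = ((m : ℝ) + 1) * m := by exact_mod_cast h4
      linarith
    rw [e2]
    push_cast
    field_simp
    ring
  rw [h3, ← mul_assoc] at h2
  exact h2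

end Vale.Agent.P057
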