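import Mathlib.Algebra.Group.ForwardDiff
import Mathlib.RingTheory.Polynomial.Pochhammer
import Mathlib.Analysis.Polynomial.Basic
import Mathlib.Tactic

/-!
# Windowed differences and polynomials
-/

open Polynomial Finset fwdDiff

namespace Vale.Agent.P057

/-- If the `(D+1)`-st differences of `f` vanish on a window, `f` is a polynomial there. -/
theorem newton (K D : ℕ) (f : ℕ → ℚ)
    (hf : ∀ j, j + D + 1 < K → (fwdDiff 1)^[D + 1] f j = 0) :
    ∃ P : ℚ[X], P.natDegree ≤ D ∧ ∀ j < K, P.eval (j : ℚ) = f j := by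
  classical
  refine ⟨∑ k ∈ range (D + 1), C ((fwdDiff 1)^[k] f 0 / (k.factorial : ℚ)) * descPochhammer ℚ k,
    ?_, ?_⟩
  · refine natDegree_sum_le_of_forall_le _ _ fun k hk => ?_
    refine (natDegree_C_mul_le _ _).trans ?_
    rw [descPochhammer_natDegree]
    have := mem_range.1 hk
    omega
  · intro j hj
    rw [eval_finsetSum]
    have h1 := shift_eq_sum_fwdDiff_iter (M := ℕ) (G := ℚ) 1 f j 0
    simp only [smul_eq_mul, mul_one, zero_add, nsmul_eq_mul] at h1
    rw [h1]
    -- both sums agree with the sum over `range (D+1)` resp. `range (j+1)`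
    have hz : ∀ k, D + 1 ≤ k → k ≤ j → (fwdDiff 1)^[k] f 0 = 0 := by
      intro k hk hkj
      obtain ⟨e, rfl⟩ := Nat.exists_eq_add_of_le hk
      rw [show D + 1 + e = e + (D + 1) by omega, Function.iterate_add_apply,
        fwdDiff_iter_eq_sum_shift]
      refine sum_eq_zero fun i hi => ?_
      have := mem_range.1 hi
      rw [hf _ (by simp; omega), smul_zero]
    have hterm : ∀ k, eval (j : ℚ) (C ((fwdDiff 1)^[k] f 0 / (k.factorial : ℚ)) *
        descPochhammer ℚ k) = (j.choose k : ℚ) * (fwdDiff 1)^[k] f 0 := by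
      intro k
      rw [eval_mul, eval_C, descPochhammer_eval_eq_descFactorial, Nat.descFactorial_eq_factorial_mul_choose]
      have : (k.factorial : ℚ) ≠ 0 := by exact_mod_cast k.factorial_ne_zero
      push_cast
      field_simp
    simp only [hterm]
    rcases le_total D j with h | h
    · symm
      have : range (D + 1) ⊆ range (j + 1) := range_subset_range.2 (by omega)
      symm
      refine sum_subset this fun k hk hk' => ?_
      rw [hz k (by simpa using hk') (by simpa [Nat.lt_succ_iff] using hk), mul_zero]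
    · have : range (j + 1) ⊆ range (D + 1) := range_subset_range.2 (by omega)
      symm
      refine sum_subset this fun k hk hk' => ?_
      have hk'' : j < k := by simpa using hk'
      rw [Nat.choose_eq_zero_of_lt hk'']
      simp

/-- Bound for iterated differences of a bounded sequence. -/
theorem fwdDiff_abs_lt (m : ℤ) (f : ℕ → ℤ) (h0 : ∀ j, 0 ≤ f j) (h1 : ∀ j, f j < m) :
    ∀ (r j : ℕ), |(fwdDiff 1)^[r + 1] f j| ≤ 2 ^ r * (m - 1) := by
  intro r
  induction r with
  | zero =>
    intro j
    simp only [zero_add, Function.iterate_one, fwdDiff, pow_zero, one_mul]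
    rw [abs_le]
    constructor
    · linarith [h0 (j + 1), h1 j]
    · linarith [h0 j, h1 (j + 1)]
  | succ r ih =>
    intro j
    rw [Function.iterate_succ_apply', fwdDiff]
    calc |(fwdDiff 1)^[r + 1] f (j + 1) - (fwdDiff 1)^[r + 1] f j|
        ≤ |(fwdDiff 1)^[r + 1] f (j + 1)| + |(fwdDiff 1)^[r + 1] f j| := abs_sub _ _
      _ ≤ 2 ^ r * (m - 1) + 2 ^ r * (m - 1) := add_le_add (ih _) (ih _)
      _ = 2 ^ (r + 1) * (m - 1) := by ring

/-- Uniqueness of expansions with small coefficients. -/
theorem digits_zero (q : ℤ) : ∀ (d : ℕ) (c : ℕ → ℤ), (∀ i < d, |c i| < q) →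
    ∑ i ∈ range d, c i * q ^ i = 0 → ∀ i < d, c i = 0 := by
  intro d
  induction d with
  | zero => intro c _ _ i hi; omega
  | succ d ih =>
    intro c hc hs
    rw [sum_range_succ'] at hs
    simp only [pow_zero, mul_one] at hs
    have hq : 0 < q := lt_of_le_of_lt (abs_nonneg _) (hc 0 (by omega))
    have h1 : ∑ i ∈ range d, c (i + 1) * q ^ (i + 1) = q * ∑ i ∈ range d, c (i + 1) * q ^ i := by
      rw [mul_sum]; exact sum_congr rfl fun i _ => by ring
    rw [h1] at hs
    have hdvd : q ∣ c 0 := ⟨- ∑ i ∈ range d, c (i + 1) * q ^ i, by linarith⟩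
    have hc0 : c 0 = 0 := Int.eq_zero_of_abs_lt_dvd hdvd (hc 0 (by omega))
    rw [hc0, add_zero] at hs
    have hs' : ∑ i ∈ range d, c (i + 1) * q ^ i = 0 := by
      rcases mul_eq_zero.1 hs with h | h
      · omega
      · exact h
    have := ih (fun i => c (i + 1)) (fun i hi => hc (i + 1) (by omega)) hs'
    intro i hi
    rcases i with _ | i
    · exact hc0
    · exact this i (by omega)

end Vale.Agent.P057
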